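import Crest.Agent.X262.Sym65.Two
import Crest.Agent.X262.Vb.Loc
import Crest.Agent.X262.Vb37.Univ
import Crest.Agent.X262.Wd54.Lat
import Crest.Agent.X262.Drop30.Defs
import Crest.Agent.X262.Cht28.Main_Mg
import Crest.Agent.X262.Cnt37.Main
import Crest.Agent.X262.Vb10.Amal
import Crest.Agent.X262.Vb.Vir
import Crest.Agent.X262.Val40.Pb
import Crest.Agent.X262.Vb37.Mob
import Crest.Agent.X262.Vb10.Gw
import Crest.Agent.X262.Wd54.Gx
import Crest.Agent.X262.Cl49.Np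
import Crest.Agent.X262.Val40.Cfg
import Crest.Agent.X262.Wd54.Defs
import Crest.Agent.X262.Node22.Red
import Crest.Agent.X262.Vb.Bas0
import Crest.Agent.X262.Hb.Dgc
import Crest.Agent.X262.Node22.Gau
import Crest.Agent.X262.Tree87.Rank

-- ▼ part X262/Wv65/Bas
section

/-!
# Row 262, road B, WDVV1 (helper65), part 0

* `cut_ful` : the cut of the virtual integrand by a divisorial valuation is the number of the
  reduced configuration;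
* `bal` : the divisors `t = 0` and `t = 1` give the same number;
* `gw_equiv`, `gw_prd`, `gw_junk` : relabelling of the marks, degrees without data.
-/

set_option autoImplicit false
set_option linter.unusedSectionVars false

noncomputable section

namespace Crest.Agent.X262.Wv65

open Crest.Agent.X277 Crest.Agent.X277.BD Crest.Agent.X277.Pst Crest.Agent.X277.BD.Cyc Polynomial
open Crest.Agent.X262.Geo (od od_eq_zero essFT_Rf)
open Crest.Agent.X262.Hb Crest.Agent.X262.Vb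
open Crest.Agent.X262.Sym65 (PF PX Liv Sup sm cf i1 i2 cut qv Fs)
open Crest.Agent.X262.Wd54 (ful)

variable {J : Type} [Fintype J] [DecidableEq J] {io : J → Type} [∀ j, Fintype (io j)]
  [∀ j, DecidableEq (io j)] {A : Type} [Fintype A] {B : Th} {T : Tgt io A}

section Cut

variable {I M M' K : Type} [Fintype I] [Field K] [Algebra ℂ K] {z : Cfg io I K} {m : M → I}
  {Φ : MFam B io M}

theorem ful_congr {m' : M' → I} {Ψ : MFam B io M'}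
    (h : ∀ (E : Type) [Field E] [Algebra ℂ E] (y : I → Pnt io E),
      Φ E (fun q => y (m q)) = Ψ E fun q => y (m' q)) (ω : B.H K) :
    ful B T z m Φ ω = ful B T z m' Ψ ω := by
  unfold ful trm
  simp only [h]

variable [Algebra.EssFiniteType ℂ K]

/-- the cut of the virtual integrand is the number of the reduced configuration -/
theorem cut_ful (hB : B.Ax) (hR : Rk T z) (hO : ¬z.On T) (hΦ : MCls B T Φ) {W : RZ ℂ K}
    (hW : Dvs W) : cut (z.dv T) (qv (cpF B T z) (cf B (z.dv T)) * evF z m Φ) W =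
      ful B T (z.red (plV W)) m Φ 1 := by
  have := essFT_Rf hW
  have hz := hR.nz
  have h1 := Cfg.on_red_iff T (lnr_plV W) hz hO
  unfold cut ful
  by_cases h : (z.dv T).val W = 1
  · have h2 : ¬(z.red (plV W)).On T := fun h2 => h1.1 h2 h
    have h3 := Cfg.dv_red T (lnr_plV W) hz h2
    rw [if_pos h, if_neg h2, ← h3]
    refine Sym65.sm_congr fun U hU h4 => ?_
    have := essFT_Rf hU
    have h5 : Cfg.Geq (z.red ((LP.at W).comp (LP.at U)).toPl) ((z.red (plV W)).red (plV U)) :=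
      Cfg.red_comp (LP.at W) (LP.at U) hz
    have h7 : B.c1 ((plV W).res (z.dv T)) = B.pb (LP.at W) (B.c1 (z.dv T)) :=
      (hB.pb_c1_res (LP.at W) h).symm
    have h6 : ((z.red (plV W)).red (plV U)).On T :=
      on_at (hz.red _) ((od_eq_zero hU).not.1 h4)
    rw [map_one, one_mul, i2, trm, exc_geq hB h5 (hz.red _),
      hΦ.geq h5 (hz.red _) ((h5.on T).1 h6), h3, h7, ← hB.pb_comp]
    rfl
  · have h2 := h1.2 h
    rw [if_neg h, if_pos h2, one_mul, i1]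
    have h3 := hR.root hB hO (p := LP.at W) h2
    have h4 := Sym65.eval_divX (cpF B T z _ (LP.at W)) (cf B (z.dv T) _ (LP.at W))
    rw [h3, sub_zero] at h4
    change B.itg _ (_ * (_ * _)) = B.itg _ ((cpF B T z _ (LP.at W)).eval 0 * _)
    rw [← h4, mul_assoc]
    rfl

theorem pr_sup (t : K) (h0 : t ≠ 0) (h1 : t - 1 ≠ 0) : pr ℂ t ⊔ 0 = pr ℂ (t - 1) ⊔ 0 := by
  refine ext' fun W => ?_
  rw [val_sup, val_sup, val_pr h0, val_pr h1, val_zero]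
  rcases le_or_gt (W.v t) 1 with h | h
  · rw [max_eq_right h, max_eq_right ((W.v.map_sub _ _).trans (max_le h (map_one W.v).le))]
  · rw [W.v.map_sub_eq_of_lt_left (by rwa [map_one])]

/-- the divisors `t = 0` and `t = 1` carry the same number -/
theorem bal (hB : B.Ax) (hR : Rk T z) (hO : ¬z.On T) (hΦ : MCls B T Φ) {t : K} (h0 : t ≠ 0)
    (h1 : t - 1 ≠ 0) : (sm (pr ℂ t ⊓ 0) fun W => ful B T (z.red (plV W)) m Φ 1) =
      sm (pr ℂ (t - 1) ⊓ 0) fun W => ful B T (z.red (plV W)) m Φ 1 := by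
  have hL := (hR.liv hB hΦ m (z.dv T)).mono (sup_sub hR.nz)
  have hD := Cfg.dv_nonneg T hR.nz
  have key : ∀ s : K, (sm (pr ℂ s ⊓ 0) fun W => ful B T (z.red (plV W)) m Φ 1) =
      -sm (pr ℂ s ⊔ 0) (cut (z.dv T) (qv (cpF B T z) (cf B (z.dv T)) * evF z m Φ)) := fun s => by
    have h2 := Sym65.sm_pr_cut hB hD hL s
    rw [← add_zero (pr ℂ s), ← inf_add_sup, Sym65.sm_add_left (Sym65.fin_cut hB hD hL _)
      (Sym65.fin_cut hB hD hL _)] at h2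
    rw [← eq_neg_of_add_eq_zero_left h2]
    exact Sym65.sm_congr fun W hW _ => (cut_ful hB hR hO hΦ hW).symm
  rw [key, key, pr_sup t h0 h1]

end Cut

section Gw

variable {d : J → ℕ} {M M' : Type} [Fintype M] [Fintype M']

theorem isGW_equiv (e : M ≃ M') {Φ : MFam B io M} {Ψ : MFam B io M'}
    (h : ∀ (E : Type) [Field E] [Algebra ℂ E] (y : M' → Pnt io E), Ψ E y = Φ E fun q => y (e q))
    {v : ℂ} (hv : IsGW B T d Φ v) : IsGW B T d Ψ v := by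
  obtain ⟨N, hN⟩ := hv
  refine ⟨N, fun K K₀ I _ _ _ _ _ _ _ ξ m θ ⟨ξ₀, h0, h1⟩ hξ => ?_⟩
  rw [← hN K K₀ I ξ (fun q => m (e q)) θ ⟨ξ₀.res e, Vb37.univ_res_equiv h0 e, ?_⟩ hξ]
  · unfold vir trm
    simp only [h]
  · obtain ⟨g, c, a1, a2, a3, a4⟩ := h1
    exact ⟨g, c, a1, a2, a3, fun q => a4 (e q)⟩

/-- relabelling of the marks -/
theorem gw_equiv (e : M ≃ M') {Φ : MFam B io M} {Ψ : MFam B io M'}
    (h : ∀ (E : Type) [Field E] [Algebra ℂ E] (y : M' → Pnt io E), Ψ E y = Φ E fun q => y (e q)) :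
    GW B T d Ψ = GW B T d Φ := by
  have key : IsGW B T d Ψ = IsGW B T d Φ := funext fun v => propext
    ⟨isGW_equiv e.symm fun E _ _ y => by simp [h], isGW_equiv e h⟩
  unfold GW
  rw [key]

theorem gw_prd (e : M ≃ M') {α : M → Fam B io} {β : M' → Fam B io} (h : ∀ q, β (e q) = α q) :
    GW B T d (prd β) = GW B T d (prd α) :=
  gw_equiv e fun E _ _ y => by
    rw [prd, prd, ← e.prod_comp]
    simp only [h]

theorem not_cp {K : Type} [Field K] {f : (j : J) → io j → K[X]} (h : Cp d f) (j : J) :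
    Nonempty (io j) ∧ (d j = 0 ∨ Nontrivial (io j)) := by
  obtain ⟨i, hi⟩ := h.2.1 j
  refine ⟨⟨i⟩, by_contra fun h1 => ?_⟩
  rw [not_or, not_nontrivial_iff_subsingleton] at h1
  obtain ⟨h1, h2⟩ := h1
  have h3 := h.2.2 j
  rw [show Set.range (f j) = {f j i} from Set.eq_singleton_iff_unique_mem.2
    ⟨⟨i, rfl⟩, fun _ ⟨i', e⟩ => e ▸ congrArg _ (Subsingleton.elim _ _)⟩,
    Ideal.span_singleton_eq_top] at h3
  exact hi (coeff_eq_zero_of_natDegree_lt ((natDegree_eq_zero_of_isUnit h3).trans_lt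
    (Nat.pos_of_ne_zero h1)))

/-- no data, no invariant -/
theorem gw_junk {j : J} (h : ¬(Nonempty (io j) ∧ (d j = 0 ∨ Nontrivial (io j))))
    (Φ : MFam B io M) : GW B T d Φ = 0 := by
  have key : ∀ v, IsGW B T d Φ v := fun v =>
    ⟨0, fun _ _ _ _ _ _ _ _ _ _ ξ _ _ _ _ => (h (not_cp ξ.cp j)).elim⟩
  exact dif_neg fun ⟨_, _, h1⟩ => zero_ne_one ((h1 0 (key 0)).trans (h1 1 (key 1)).symm)

theorem wd_junk {j : J} (h : ¬(Nonempty (io j) ∧ (d j = 0 ∨ Nontrivial (io j)))) {ι : Type}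
    [Fintype ι] (e e' : ι → Fam B io) (x₁ x₂ x₃ x₄ : Fam B io) [DecidableEq M]
    (α : M → Fam B io) : wd B T d e e' x₁ x₂ x₃ x₄ α = 0 := by
  refine Finset.sum_eq_zero fun d₁ _ => Finset.sum_eq_zero fun S _ => Finset.sum_eq_zero
    fun l _ => ?_
  by_cases h1 : Nonempty (io j) ∧ (d₁ j = 0 ∨ Nontrivial (io j))
  · rw [gw3, gw3, gw_junk (d := d - d₁) (j := j), mul_zero]
    rintro ⟨-, h2⟩
    refine h ⟨h1.1, ?_⟩
    rcases h1.2 with h3 | h3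
    · exact h2.imp_left fun h2 => by simpa [h3] using h2
    · exact Or.inr h3
  · rw [gw3, gw_junk h1, zero_mul]

end Gw

end Crest.Agent.X262.Wv65
end
end

-- ▼ part X262/Wv65/Main
section

/-!
# Row 262, road B, WDVV1 (helper65), part 1

`wdvv_of` : the associativity equation from SPLIT, DROP, GEN, ORD, the existence of norming points
and the rank statement.
-/

set_option autoImplicit false
set_option linter.unusedSectionVars false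

noncomputable section

namespace Crest.Agent.X262.Wv65

open Crest.Agent.X277 Crest.Agent.X277.BD Crest.Agent.X277.Pst Crest.Agent.X277.BD.Cyc Polynomial
open Crest.Agent.X262.Geo (od od_eq_zero essFT_Rf)
open Crest.Agent.X262.Hb Crest.Agent.X262.Vb
open Crest.Agent.X262.Sym65 (sm)
open Crest.Agent.X262.Wd54 (ful Lat ten ins GUniv)
open Crest.Agent.X262.Drop30 (Mi Mo Shp IsTy kT Chart Univ2 Small)
open Crest.Agent.X262.Val40 (dn rf)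
open Crest.Agent.X262.Vb10 (deg_comp deg_equiv eft_of_deg)

variable {J : Type} [Fintype J] [DecidableEq J] {io : J → Type} [∀ j, Fintype (io j)]
  [∀ j, DecidableEq (io j)] {A : Type} [Fintype A] (B : Th) (T : Tgt io A)

/-- the conclusion of `LatStmt` -/
def LatN (N : ℕ) : Prop :=
  ∀ {I I' M E : Type} [Fintype I] [Fintype I'] [Field E] [Algebra ℂ E] [Algebra.EssFiniteType ℂ E]
    (z : Cfg io I E) (m : M → I) (z' : Cfg io I' E) (m' : M → I') (Φ : MFam B io M) (ω : B.H E),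
    MCls B T Φ → Lat N z m z' m' → ful B T z m Φ ω = ful B T z' m' Φ ω

/-- the conclusion of `SplitStmt` -/
def SplN {ι : Type} [Fintype ι] (e e' : ι → Fam B io) (d₁ d₂ : J → ℕ) (N : ℕ) : Prop :=
  ∀ {M₁ M₂ k E I₁ I₂ : Type} [Fintype M₁] [Fintype M₂] [Field k] [Algebra ℂ k] [Field E]
    [Algebra ℂ E] [Algebra.EssFiniteType ℂ E] [Fintype I₁] [Fintype I₂] (ζ₁ : Dat io d₁ M₁ k)
    (ζ₂ : Dat io d₂ M₂ k) (n₁ : M₁) (n₂ : M₂), GUniv ζ₁ ζ₂ n₁ n₂ →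
    ∀ (θ : k →ₐ[ℂ] E) (ξ₁ : Dat io d₁ I₁ E) (ξ₂ : Dat io d₂ I₂ E) (m₁ : M₁ → I₁) (m₂ : M₂ → I₂),
    0 < deg θ → (ζ₁.map θ).Eqv (ξ₁.res m₁) → (ζ₂.map θ).Eqv (ξ₂.res m₂) → ξ₁.NrmUp N →
    ξ₂.NrmUp N → ∀ (Φ₁ : MFam B io M₁) (Φ₂ : MFam B io M₂), MCls B T Φ₁ → MCls B T Φ₂ →
    ful B T (Wd54.gl ξ₁ ξ₂ (m₁ n₁) (m₂ n₂)) (Sum.map m₁ m₂) (ten Φ₁ Φ₂) 1 =
      deg θ * ∑ l, GW B T d₁ (ins Φ₁ n₁ (e l)) * GW B T d₂ (ins Φ₂ n₂ (e' l))

variable (io) in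
/-- the form of `Drop30.DropStmt` which is used here -/
def DropU : Prop :=
  ∀ (d : J → ℕ) (N : ℕ) (M I K L : Type) [Fintype M] [Fintype I] [Field K] [Algebra ℂ K] [Field L]
    [Algebra ℂ L] [Algebra.EssFiniteType ℂ L] (x₀ : Dat io d M K) (o a b e : M) (A R : ℂ) (B : K),
    Shp x₀ o a b e A R B → x₀.Univ →
    ∀ (θ : K →ₐ[ℂ] L) (ξ : Dat io d I L) (g : M → I), ξ.res g = x₀.map θ → ξ.NrmUp N →
    ∀ W : RZ ℂ L, Dvs W → W.v (θ (B - algebraMap ℂ K A)) < 1 →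
      Small io N (ξ.cfg.red (plV W)) g (mdim io d (Fintype.card M) - 1) ∨
      ∃ (m n : J → ℕ) (S : Set M), IsTy d m n S o a b e ∧ ∀ x ∈ kT x₀ A R B m S, θ x ∈ W.1

variable (io) in
/-- the form of `Drop30.GenStmt` which is used here -/
def GenU : Prop :=
  ∀ (d m n : J → ℕ) (N : ℕ) (M I K L k k' I₁ I₂ : Type) [Fintype M] [Fintype I] [Fintype I₁]
    [Fintype I₂] [Field K] [Algebra ℂ K] [Field L] [Algebra ℂ L] [Field k] [Algebra ℂ k] [Field k']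
    [Algebra ℂ k'] [Algebra.EssFiniteType ℂ L] (x₀ : Dat io d M K) (o a b e : M) (A R : ℂ) (B : K)
    (S : Set M), Shp x₀ o a b e A R B → IsTy d m n S o a b e → x₀.Univ →
    ∀ (ι : k →ₐ[ℂ] K) (η₁ : Dat io m (Mi S) k) (η₂ : Dat io n (Mo S) k), Chart x₀ A R B S ι η₁ η₂ →
    ∀ (θ : K →ₐ[ℂ] L) (ξ : Dat io d I L) (g : M → I), ξ.res g = x₀.map θ → ξ.NrmUp N →
    ∀ (γ : k →ₐ[ℂ] k') (ξ₁ : Dat io m I₁ k') (ξ₂ : Dat io n I₂ k') (g₁ : Mi S → I₁)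
      (g₂ : Mo S → I₂), deg γ ≠ 0 → ξ₁.res g₁ = η₁.map γ → ξ₂.res g₂ = η₂.map γ → ξ₁.NrmUp N →
      ξ₂.NrmUp N →
    ∀ (W : RZ ℂ L) (hW : ∀ x, (θ.comp ι) x ∈ W.1), Dvs W → W.v (θ (B - algebraMap ℂ K A)) < 1 →
      ∃ (E : Type) (_ : Field E) (_ : Algebra ℂ E) (α : Rf W →ₐ[ℂ] E) (β : k' →ₐ[ℂ] E),
        deg α ≠ 0 ∧ β.comp γ = α.comp (Wd.rt (θ.comp ι) W hW) ∧
        Lat N ((ξ.cfg.red (plV W)).map α) g ((Drop30.gl ξ₁ (g₁ none) ξ₂ (g₂ none)).map β)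
          (Drop30.mk S g₁ g₂)

variable {B T} {N : ℕ} {ι : Type} [Fintype ι] {e e' : ι → Fam B io}

theorem SplN.mono {d₁ d₂ : J → ℕ} (h : SplN B T e e' d₁ d₂ N) {N' : ℕ} (hN : N ≤ N') :
    SplN B T e e' d₁ d₂ N' := fun ζ₁ ζ₂ n₁ n₂ hu θ ξ₁ ξ₂ m₁ m₂ h0 h1 h2 h3 h4 =>
  h ζ₁ ζ₂ n₁ n₂ hu θ ξ₁ ξ₂ m₁ m₂ h0 h1 h2 (Vb37.nrmUp_mono h3 hN) (Vb37.nrmUp_mono h4 hN)

section Cmp

variable {I I' M E₀ k E : Type} [Fintype I] [Fintype I'] [Field E₀] [Algebra ℂ E₀]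
  [Algebra.EssFiniteType ℂ E₀] [Field k] [Algebra ℂ k] [Algebra.EssFiniteType ℂ k] [Field E]
  [Algebra ℂ E] {z : Cfg io I E₀} {m : M → I} {z' : Cfg io I' k} {m' : M → I'} {Φ : MFam B io M}

theorem ful_cmp (hB : B.Ax) (hL : LatN B T N) (hΦ : MCls B T Φ) {α : E₀ →ₐ[ℂ] E} {β : k →ₐ[ℂ] E}
    (hα : deg α ≠ 0) (h : Lat N (z.map α) m (z'.map β) m') :
    deg α * ful B T z m Φ 1 = deg β * ful B T z' m' Φ 1 := by
  have := eft_of_deg α (Nat.pos_of_ne_zero hα)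
  rw [← Pbd43.ful_map hB T α (fun q => (nz_map α).1 (h.nz.1 q)) m hΦ,
    ← Pbd43.ful_map hB T β (fun q => (nz_map β).1 (h.nz.2 q)) m' hΦ, map_one, map_one]
  exact hL _ _ _ _ _ _ hΦ h

/-- small configurations do not contribute -/
theorem ful_small (hB : B.Ax) (hL : LatN B T N) (hΦ : MCls B T Φ) {r : ℕ} (hr : r ≤ dim ℂ E₀)
    (h : Small io N z m r) : ful B T z m Φ 1 = 0 := by
  obtain ⟨E, k, _, _, _, _, _, α, β, I', _, z', m', hα, h1, h2⟩ := h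
  have := eft_of_deg α (Nat.pos_of_ne_zero hα)
  have h3 := ful_cmp hB hL hΦ hα h2
  have h4 : deg β = 0 := by
    by_contra h4
    rw [trdeg_eq_dim, Nat.cast_lt, ← (deg_pos_iff β).1 (Nat.pos_of_ne_zero h4),
      (deg_pos_iff α).1 (Nat.pos_of_ne_zero hα)] at h1
    omega
  rw [h4, Nat.cast_zero, zero_mul] at h3
  exact (mul_eq_zero.1 h3).resolve_left (Nat.cast_ne_zero.2 hα)

end Cmp

section Ty

variable {M : Type} [Fintype M] (β : M → Fam B io) (P : M → Prop) [DecidablePred P]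

/-- the insertions at the marks of one component -/
def sub : MFam B io (Option {i // P i}) :=
  fun E _ _ y => prd (fun i : {i // P i} => β i) E fun i => y (some i)

theorem ins_sub (ε : Fam B io) :
    ins (sub β P) none ε = prd fun q : Option {i // P i} => q.elim ε fun i => β i := by
  funext E _ _ y
  rw [prd, Fintype.prod_option, mul_comm]
  rfl

variable {β} in
theorem mcls_sub (h : ∀ i, Cls B T (β i)) : MCls B T (sub β P) :=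
  (MCls.prd fun i : {i // P i} => h i).comp some

theorem prd_mk (S : Set M) [DecidablePred (· ∈ S)] {I₁ I₂ : Type} (g₁ : Mi S → I₁) (g₂ : Mo S → I₂)
    (E : Type) [Field E] [Algebra ℂ E] (y : I₁ ⊕ I₂ → Pnt io E) :
    prd β E (fun q => y (Drop30.mk S g₁ g₂ q)) =
      ten (sub β (· ∈ S)) (sub β (· ∉ S)) E fun q => y (Sum.map g₁ g₂ q) := by
  rw [prd, ← Fintype.prod_subtype_mul_prod_subtype (· ∈ S)]
  refine congrArg₂ _ (Finset.prod_congr rfl fun i _ => ?_) (Finset.prod_congr rfl fun i _ => ?_)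
  · rw [Drop30.mk, dif_pos i.2]
    rfl
  · rw [Drop30.mk, dif_neg i.2]
    rfl

end Ty

theorem guniv {m n : J → ℕ} {M₁ M₂ k : Type} [Fintype M₁] [Fintype M₂] [Field k] [Algebra ℂ k]
    [Algebra.EssFiniteType ℂ k] {η₁ : Dat io m M₁ k} {η₂ : Dat io n M₂ k} {n₁ a b : M₁}
    {o n₂ e : M₂} (h : Univ2 η₁ n₁ a b η₂ o n₂ e) : GUniv η₁ η₂ n₁ n₂ where
  n1 := ⟨_, _, _, h.nml₁⟩
  n2 := ⟨_, _, _, h.nml₂⟩
  par := by
    have := h.par
    rwa [← h.nml₁.1, ← h.nml₂.2.1] at this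
  gen := h.gen
  dm := by
    have := h.trd
    rw [trdeg_eq_dim] at this
    exact_mod_cast this

/-- the number of a component of the boundary -/
theorem ful_gen (hB : B.Ax) (hG : GenU io) (hE : ExNrm) (hL : LatN B T N)
    {d m n : J → ℕ} (hS : SplN B T e e' m n N) {M I K L k : Type} [Fintype M] [Fintype I]
    [Field K] [Algebra ℂ K] [Field L] [Algebra ℂ L] [Algebra.EssFiniteType ℂ L] [Field k]
    [Algebra ℂ k] [Algebra.EssFiniteType ℂ k] {x₀ : Dat io d M K} {o a b c : M} {A R : ℂ} {t : K}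
    {S : Set M} [DecidablePred (· ∈ S)] (hs : Shp x₀ o a b c A R t) (ht : IsTy d m n S o a b c)
    (h0 : x₀.Univ) {γ : k →ₐ[ℂ] K} {η₁ : Dat io m (Mi S) k} {η₂ : Dat io n (Mo S) k}
    (hc : Chart x₀ A R t S γ η₁ η₂) (hu : GUniv η₁ η₂ none none) {θ : K →ₐ[ℂ] L}
    {ξ : Dat io d I L} {g : M → I} (hξ : ξ.res g = x₀.map θ) (hN : ξ.NrmUp N) {β : M → Fam B io}
    (hβ : ∀ i, Cls B T (β i)) {W : RZ ℂ L} (hW : Dvs W) (h1 : ∀ x, (θ.comp γ) x ∈ W.1)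
    (h2 : W.v (θ (t - algebraMap ℂ K A)) < 1) :
    ful B T (ξ.cfg.red (plV W)) g (prd β) 1 = deg (Wd.rt (θ.comp γ) W h1) *
      ∑ l, GW B T m (ins (sub β (· ∈ S)) none (e l)) * GW B T n (ins (sub β (· ∉ S)) none (e' l)) := by
  have := essFT_Rf hW
  obtain ⟨k₁, _, _, _, θ₁, n₁, ζ₁, a1, a2, a3⟩ := hE η₁ N
  obtain ⟨k₂, _, _, _, θ₂, n₂, ζ₂, b1, b2, b3⟩ := hE (η₂.map θ₁) N
  have c1 : 0 < deg (θ₂.comp θ₁) := by rw [deg_comp]; exact Nat.mul_pos a1 b1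
  have c2 : (ζ₁.map θ₂).res Sum.inl = η₁.map (θ₂.comp θ₁) := by
    rw [← Vb37.dmap_map, ← a2]; rfl
  rw [Vb37.dmap_map] at b2
  have c3 := Vb37.nrmUp_map a3 θ₂
  obtain ⟨E, _, _, α, δ, d1, d2, d3⟩ := hG d m n N M I K L k k₂ _ _ x₀ o a b c A R t S hs ht h0 γ η₁
    η₂ hc θ ξ g hξ hN _ _ _ _ _ c1.ne' c2 b2 c3 b3 W h1 hW h2
  have e1 := ful_cmp hB hL (MCls.prd hβ) d1 d3
  have e2 := hS η₁ η₂ none none hu _ _ _ Sum.inl Sum.inl c1 (c2 ▸ Vb37.eqv_refl _)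
    (b2 ▸ Vb37.eqv_refl _) c3 b3 _ _ (mcls_sub (· ∈ S) hβ) (mcls_sub (· ∉ S) hβ)
  rw [ful_congr (prd_mk β S _ _)] at e1
  refine mul_left_cancel₀ (Nat.cast_ne_zero.2 d1) (e1.trans ((congrArg _ e2).trans ?_))
  have e3 := congrArg deg d2
  rw [deg_comp _ δ, deg_comp _ α] at e3
  rw [← mul_assoc, ← mul_assoc, ← Nat.cast_mul, ← Nat.cast_mul, mul_comm (deg δ), e3, mul_comm (deg α)]

theorem deg_rt {k K L : Type} [Field k] [Algebra ℂ k] [Field K] [Algebra ℂ K] [Field L]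
    [Algebra ℂ L] {γ : k →ₐ[ℂ] K} {θ : K →ₐ[ℂ] L} {V : RZ ℂ K} {W : RZ ℂ L} (h : V = dn θ W)
    {hV : ∀ x, γ x ∈ V.1} (hb : Function.Bijective (Wd.rt γ V hV))
    (hW : ∀ x, (θ.comp γ) x ∈ W.1) : deg (Wd.rt (θ.comp γ) W hW) = deg (rf θ W) := by
  subst h
  rw [show Wd.rt (θ.comp γ) W hW = (rf θ W).comp (AlgEquiv.ofBijective _ hb : k →ₐ[ℂ] _) from
    AlgHom.ext fun x => (Val40.rf_r θ W (γ x)).symm, deg_comp, deg_equiv, one_mul]

section Side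

variable {M : Type} [Fintype M] [DecidableEq M]

/-- the inner marks -/
def SS (S : Finset M) : Set (Fin 4 ⊕ M) := {q | q.elim (fun i => i.val < 2) (· ∈ S)}

theorem inl_mem {S : Finset M} {i : Fin 4} : Sum.inl i ∈ SS S ↔ i.val < 2 := Iff.rfl

theorem inr_mem {S : Finset M} {q : M} : Sum.inr q ∈ SS S ↔ q ∈ S := Iff.rfl

/-- the marks of the inner component -/
def e₁ (S : Finset M) : Fin 3 ⊕ {q // q ∈ S} ≃ Mi (SS S) :=
  Equiv.ofBijective (Sum.elim ![some ⟨.inl 0, inl_mem.2 (by decide)⟩,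
    some ⟨.inl 1, inl_mem.2 (by decide)⟩, none] fun q => some ⟨.inr q, q.2⟩) <| by
  constructor
  · rintro (a | a) (b | b) h
    · fin_cases a <;> fin_cases b <;> simp at h ⊢
    · fin_cases a <;> cases h
    · fin_cases b <;> cases h
    · exact congrArg _ (Subtype.ext (Sum.inr.inj (congrArg Subtype.val (Option.some.inj h))))
  · rintro (_ | ⟨i | q, h⟩)
    · exact ⟨.inl 2, rfl⟩
    · fin_cases i
      exacts [⟨.inl 0, rfl⟩, ⟨.inl 1, rfl⟩, absurd (inl_mem.1 h) (by decide),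
        absurd (inl_mem.1 h) (by decide)]
    · exact ⟨.inr ⟨q, h⟩, rfl⟩

/-- the marks of the outer component -/
def e₂ (S : Finset M) : Fin 3 ⊕ {q // q ∉ S} ≃ Mo (SS S) :=
  Equiv.ofBijective (Sum.elim ![none, some ⟨.inl 2, inl_mem.not.2 (by decide)⟩,
    some ⟨.inl 3, inl_mem.not.2 (by decide)⟩] fun q => some ⟨.inr q, q.2⟩) <| by
  constructor
  · rintro (a | a) (b | b) h
    · fin_cases a <;> fin_cases b <;> simp at h ⊢
    · fin_cases a <;> cases h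
    · fin_cases b <;> cases h
    · exact congrArg _ (Subtype.ext (Sum.inr.inj (congrArg Subtype.val (Option.some.inj h))))
  · rintro (_ | ⟨i | q, h⟩)
    · exact ⟨.inl 0, rfl⟩
    · fin_cases i
      exacts [absurd (inl_mem.2 (by decide)) h, absurd (inl_mem.2 (by decide)) h, ⟨.inl 1, rfl⟩,
        ⟨.inl 2, rfl⟩]
    · exact ⟨.inr ⟨q, h⟩, rfl⟩

variable {d : J → ℕ}

theorem isTy (τ : Finset.Iic d × Finset M) :
    IsTy d τ.1 (d - τ.1) (SS τ.2) (.inl 3) (.inl 1) (.inl 0) (.inl 2) where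
  add j := Nat.add_sub_cancel' (Finset.mem_Iic.1 τ.1.2 j)
  a := inl_mem.2 (by decide)
  b := inl_mem.2 (by decide)
  o := inl_mem.not.2 (by decide)
  e := inl_mem.not.2 (by decide)

theorem exists_ty {m n : J → ℕ} {S : Set (Fin 4 ⊕ M)}
    (h : IsTy d m n S (.inl 3) (.inl 1) (.inl 0) (.inl 2)) :
    ∃ τ : Finset.Iic d × Finset M, m = τ.1 ∧ S = SS τ.2 := by
  classical
  refine ⟨(⟨m, Finset.mem_Iic.2 fun j => Nat.le.intro (h.add j)⟩,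
    Finset.univ.filter fun q => .inr q ∈ S), rfl, Set.ext ?_⟩
  rintro (i | q)
  · fin_cases i
    exacts [iff_of_true h.b (inl_mem.2 (by decide)), iff_of_true h.a (inl_mem.2 (by decide)),
      iff_of_false h.e (inl_mem.not.2 (by decide)), iff_of_false h.o (inl_mem.not.2 (by decide))]
  · simp [inr_mem]

/-- **one side** of the associativity equation -/
theorem side (hB : B.Ax) (hD : DropU io) (hG : GenU io)
    (hO : Drop30.OrdStmt io) (hE : ExNrm) (hL : LatN B T N)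
    (hS : ∀ d₁ ∈ Finset.Iic d, SplN B T e e' d₁ (d - d₁) N) {I K L : Type} [Fintype I] [Field K]
    [Algebra ℂ K] [Field L] [Algebra ℂ L] [Algebra.EssFiniteType ℂ L]
    {x₀ : Dat io d (Fin 4 ⊕ M) K} {A R : ℂ} {t : K}
    (hs : Shp x₀ (.inl 3) (.inl 1) (.inl 0) (.inl 2) A R t) (hu : x₀.Univ) {θ : K →ₐ[ℂ] L}
    (hθ : 0 < deg θ) {ξ : Dat io d I L} {g : Fin 4 ⊕ M → I} (hξ : ξ.res g = x₀.map θ)
    (hN : ξ.NrmUp N) {x : Fin 4 → Fam B io} {α : M → Fam B io} (hx : ∀ i, Cls B T (x i))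
    (hα : ∀ q, Cls B T (α q)) :
    (sm (pr ℂ (θ (t - algebraMap ℂ K A)) ⊓ 0) fun W =>
      ful B T (ξ.cfg.red (plV W)) g (prd (Sum.elim x α)) 1) =
      -(deg θ * wd B T d e e' (x 0) (x 1) (x 2) (x 3) α) := by
  classical
  have := Vb37.univ_essFT hu
  have hβ : ∀ q, Cls B T (Sum.elim x α q) := by rintro (i | q); exacts [hx i, hα q]
  obtain ⟨h1, h2⟩ := hO d _ K x₀ _ _ _ _ A R t hs hu
  choose V hV hV1 hV2 hV3 hV4 using fun τ : Finset.Iic d × Finset M => (h1 _ _ _ (isTy τ)).2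
  set s := t - algebraMap ℂ K A with hs'
  have hs0 : s ≠ 0 := sub_ne_zero.2 hs.ab
  have hlt : ∀ τ, (V τ).v s < 1 := fun τ => by
    rw [← val_pr hs0, ← val_zero (V τ), ← Geo.od_lt_iff (hV1 τ), hV2, map_zero]
    decide
  have hinj : Function.Injective V := fun τ τ' h => by
    obtain ⟨h3, h4⟩ := h2 _ _ _ _ _ _ (isTy τ) (isTy τ') (V τ) (hlt τ) (fun y hy => hV τ ⟨y, hy⟩)
      fun y hy => h ▸ hV τ' ⟨y, hy⟩
    exact Prod.ext (Subtype.ext h3) (Finset.ext fun q => by rw [← inr_mem, h4, inr_mem])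
  let G : Finset.Iic d × Finset M → ℂ := fun τ => ∑ l,
    gw3 B T τ.1 ![x 0, x 1, e l] (fun q : {q // q ∈ τ.2} => α q) *
      gw3 B T (d - τ.1) ![e' l, x 2, x 3] (fun q : {q // q ∉ τ.2} => α q)
  let F : RZ ℂ K → ℂ := fun U => ∑ τ, if V τ = U then G τ else 0
  have hF : ∀ τ, F (V τ) = G τ := fun τ => by simp [F, hinj.eq_iff]
  rw [← pb_pr, ← map_zero (pb θ), ← pb_inf, sm, Val40.finsum_pull θ _ F _ fun W hW hW' h0 => ?_]
  · rw [← mul_neg]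
    refine congrArg _ ((Sym65.sm_sum (S := Finset.univ.image V) (fun U hU => ?_)
      fun U _ hU => ?_).trans ?_)
    · obtain ⟨τ, -, rfl⟩ := Finset.mem_image.1 hU
      exact hV1 τ
    · by_contra h3
      refine hU (mul_eq_zero_of_right _ (Finset.sum_eq_zero fun τ _ => if_neg fun h4 => h3 ?_))
      exact Finset.mem_image.2 ⟨τ, Finset.mem_univ _, h4⟩
    · rw [Finset.sum_image hinj.injOn, wd, ← Finset.sum_coe_sort (Finset.Iic d), ← Fintype.sum_prod_type',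
        ← Finset.sum_neg_distrib]
      refine Finset.sum_congr rfl fun τ _ => ?_
      rw [hF, (Geo.od_eq_iff (hV1 τ) (b := pr ℂ s)).2 (by
        rw [val_inf, val_zero, min_eq_left (by rw [val_pr hs0]; exact (hlt τ).le)]), hV2]
      simp [G]
  have := essFT_Rf hW
  have h3 : (dn θ W).v s < 1 := lt_of_not_ge fun h3 => h0 ((od_eq_zero hW').2 (by
    rw [val_inf, val_zero, min_eq_right (by rwa [val_pr hs0])]))
  have h4 := Val40.v_dn_lt_one.1 h3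
  by_cases h5 : ∃ τ, V τ = dn θ W
  · obtain ⟨τ, h5⟩ := h5
    have := Wd.essFT_of_hom (kT x₀ A R t τ.1 (SS τ.2)).val
    obtain ⟨η₁, η₂, h6, h7⟩ := (h1 _ _ _ (isTy τ)).1
    have h8 : ∀ y, (θ.comp (kT x₀ A R t τ.1 (SS τ.2)).val) y ∈ W.1 := fun y =>
      (Val40.mem_dn (α := θ) (W := W)).1 (h5 ▸ hV τ y)
    rw [ful_gen hB hG hE hL (hS _ τ.1.2) hs (isTy τ) hu h6 (guniv h7) hξ hN hβ hW h8 h4,
      deg_rt h5 (hV3 τ), ← congrArg F h5, hF]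
    refine congrArg _ (Finset.sum_congr rfl fun l _ => ?_)
    rw [ins_sub, ins_sub, gw3, gw3]
    refine congrArg₂ _ (gw_prd (e₁ τ.2) ?_) (gw_prd (e₂ τ.2) ?_)
    · rintro (i | q)
      · fin_cases i <;> rfl
      · rfl
    · rintro (i | q)
      · fin_cases i <;> rfl
      · rfl
  · rw [show F (dn θ W) = 0 from Finset.sum_eq_zero fun τ _ => if_neg fun h => h5 ⟨τ, h⟩, mul_zero]
    rcases hD d N _ I K L x₀ _ _ _ _ A R t hs hu θ ξ g hξ hN W hW h4 with h6 | ⟨m, n, S, h6, h7⟩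
    · refine ful_small hB hL (MCls.prd hβ) ?_ h6
      have h8 := hu.2.2
      rw [trdeg_eq_dim, Nat.cast_inj, ← (deg_pos_iff θ).1 hθ, Geo.dim_Rf' hW] at h8
      omega
    · obtain ⟨τ, rfl, rfl⟩ := exists_ty h6
      exact (h5 ⟨τ, (hV4 τ _ h7 h3).symm⟩).elim

end Side

/-- **WDVV** -/
theorem wdvv_of (hS : Wd54.SplitStmt)
    (hD : ∀ {J : Type} [Fintype J] [DecidableEq J] (io : J → Type) [∀ j, Fintype (io j)]
      [∀ j, DecidableEq (io j)], DropU io)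
    (hG : ∀ {J : Type} [Fintype J] [DecidableEq J] (io : J → Type) [∀ j, Fintype (io j)]
      [∀ j, DecidableEq (io j)], GenU io)
    (hO : ∀ {J : Type} [Fintype J] [DecidableEq J] (io : J → Type) [∀ j, Fintype (io j)]
      [∀ j, DecidableEq (io j)], Drop30.OrdStmt io)
    (hE : ExNrm) (hR : RankStmt) : WdvvStmt := by
  intro B hB J _ _ io _ _ A _ T c hT ι _ e e' he he' hd d x₁ x₂ x₃ x₄ h₁ h₂ h₃ h₄ M _ _ α hα
  by_cases hj : ∀ j, Nonempty (io j) ∧ (d j = 0 ∨ Nontrivial (io j))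
  swap
  · obtain ⟨j, hj⟩ := not_forall.1 hj
    rw [wd_junk hj, wd_junk hj]
  obtain ⟨N₁, n1⟩ := Wd54.latStmt B hB T c hT
  obtain ⟨N₂, n2⟩ := rk_of hR (hT.good d)
  choose N₃ n3 using fun d₁ => hS B hB T c hT e e' he he' hd d₁ (d - d₁)
  let N := max (max N₁ N₂) ((Finset.Iic d).sup N₃)
  have hL : LatN B T N := n1 N ((le_max_left _ _).trans (le_max_left _ _))
  have hS' : ∀ d₁ ∈ Finset.Iic d, SplN B T e e' d₁ (d - d₁) N := fun d₁ h =>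
    SplN.mono (n3 d₁) ((Finset.le_sup h).trans (le_max_right _ _))
  obtain ⟨K, _, _, _, x', hu'⟩ := Vb37.exists_univ' (M := Fin 4 ⊕ M) hj (by simp; omega)
  obtain ⟨x₀, -, hn, hu⟩ := Vb37.univ_nm3 hu' (a := .inl 3) (b := .inl 1) (c := .inl 2)
    (by simp) (by simp) (by simp)
  obtain ⟨t, ht, htr⟩ := Vb37.univ_x hu hn (q := .inl 0) (by simp)
  have hne : ∀ a : ℂ, t ≠ algebraMap ℂ K a := fun a h => htr (h ▸ isAlgebraic_algebraMap a)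
  obtain ⟨L, _, _, _, θ, n, ξ, hθ, hξ, hN⟩ := hE x₀ N
  have hz : ξ.cfg.NZ := fun q => Vb37.nz_pt ξ _
  have hon : ¬ξ.cfg.On T := fun h => (Cnt37.notOnStmt T hT.1).2 x₀ hu (.inl 0) <| by
    have h1 : T.On ((ξ.res Sum.inl).cfg.y (.inl 0)) := h _
    rw [hξ, Vb37.cfg_map] at h1
    exact (on_map T θ).1 h1
  let σ : Fin 4 ⊕ M ≃ Fin 4 ⊕ M := (Equiv.swap 1 2).sumCongr (Equiv.refl M)
  have s1 : Shp x₀ (.inl 3) (.inl 1) (.inl 0) (.inl 2) 0 1 t :=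
    ⟨hn.1, by rw [map_zero]; exact hn.2.1, ht, by rw [map_one]; exact hn.2.2, hne 0, one_ne_zero⟩
  have s2 : Shp (x₀.res σ) (.inl 3) (.inl 1) (.inl 0) (.inl 2) 1 0 t :=
    ⟨hn.1, by rw [map_one]; exact hn.2.2, ht, by rw [map_zero]; exact hn.2.1, hne 1, zero_ne_one⟩
  have c1 : ∀ i, Cls B T (![x₁, x₂, x₃, x₄] i) := fun i => by fin_cases i <;> assumption
  have c2 : ∀ i, Cls B T (![x₁, x₃, x₂, x₄] i) := fun i => by fin_cases i <;> assumption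
  have r1 := side hB (hD io) (hG io) (hO io) hE hL hS' s1 hu hθ hξ hN c1 hα
  have r2 := side hB (hD io) (hG io) (hO io) hE hL hS' s2 (Vb37.univ_res_equiv hu σ) hθ
    (ξ := ξ) (g := fun q => Sum.inl (σ q)) (congrArg (Dat.res σ) hξ) hN c2 hα
  have r3 : ∀ (E : Type) [Field E] [Algebra ℂ E] (y : (Fin 4 ⊕ M) ⊕ Fin n → Pnt io E),
      prd (Sum.elim ![x₁, x₃, x₂, x₄] α) E (fun q => y (Sum.inl (σ q))) =
        prd (Sum.elim ![x₁, x₂, x₃, x₄] α) E fun q => y (Sum.inl q) := fun E _ _ y => by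
    rw [prd, prd, ← σ.prod_comp fun q => Sum.elim ![x₁, x₂, x₃, x₄] α q E (y (Sum.inl q))]
    refine Finset.prod_congr rfl ?_
    rintro (i | q) -
    · fin_cases i <;> rfl
    · rfl
  simp only [ful_congr r3] at r2
  rw [map_zero, sub_zero] at r1
  rw [map_one, map_sub, map_one, ← bal hB (n2 ξ hz (Vb37.nrmUp_mono hN ((le_max_right _ _).trans
    (le_max_left _ _)))) hon (MCls.prd (by rintro (i | q); exacts [c1 i, hα q]))
    ((_root_.map_ne_zero θ).2 (by simpa using hne 0))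
    (by rw [← map_one θ, ← map_sub, _root_.map_ne_zero, sub_ne_zero]; simpa using hne 1), r1] at r2
  exact mul_left_cancel₀ (Nat.cast_ne_zero.2 hθ.ne') (neg_injective r2)

end Crest.Agent.X262.Wv65
end
end

-- ▼ part X262/Wd54/Om
section

/-!
# Row 262, road B, WDVV (helper54): the excess class of the diagonal, one term of the splitting
-/

set_option autoImplicit false
set_option linter.unusedSectionVars false

noncomputable section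

namespace Crest.Agent.X262.Wd54

open Crest.Agent.X277 Crest.Agent.X277.BD Crest.Agent.X277.Pst Crest.Agent.X277.BD.Cyc Polynomial
open Crest.Agent.X262.Geo (od od_eq_zero essFT_Rf dim_Rf')
open Crest.Agent.X262.Hb Crest.Agent.X262.Vb
open Crest.Agent.X262.Node22 (Par scl chr dimP dl da TP gD gD_ne Dg)
open Crest.Agent.X262.Val40 (dn rf)

variable {J : Type} [Fintype J] [DecidableEq J] {io : J → Type} [∀ j, Fintype (io j)]
  [∀ j, DecidableEq (io j)] {A : Type} [Fintype A] {I I' M : Type} [Fintype I] [Fintype I']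
  {K E L : Type} [Field K] [Algebra ℂ K] [Field E] [Algebra ℂ E] [Field L] [Algebra ℂ L]
  {y y' z z' : Pnt io K}

theorem exists_dvs [Algebra.EssFiniteType ℂ K] (h : dim ℂ K ≠ 0) : ∃ V : RZ ℂ K, Dvs V := by
  obtain ⟨M⟩ := (inferInstance : Nonempty (Mdl ℂ K))
  obtain ⟨n, hn⟩ := Nat.exists_eq_succ_of_ne_zero h
  have h1 := M.H_pos
  rw [hn, List.replicate_succ] at h1
  obtain ⟨S, -, h2, -, h3⟩ := Geo.exists_cyc M.H (List.replicate n M.H) ∅ (by simp)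
  obtain ⟨V, hV, -⟩ := Finset.exists_ne_zero_of_sum_ne_zero (h3 ▸ h1.ne')
  exact ⟨V, h2 V hV⟩

theorem one_ne_zero' {B : Th} (hB : B.Ax) (n : ℕ) : ∀ (K : Type) [Field K] [Algebra ℂ K]
    [Algebra.EssFiniteType ℂ K], dim ℂ K = n → (1 : B.H K) ≠ 0 := by
  induction n with
  | zero =>
    intro K _ _ _ h h0
    have := hB.itg_one_of_dim h
    rw [h0, map_zero] at this
    exact zero_ne_one this
  | succ n ih =>
    intro K _ _ _ h h0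
    obtain ⟨V, hV⟩ := exists_dvs (K := K) (by omega)
    have := essFT_Rf hV
    have h1 := dim_Rf' hV
    refine ih (Rf V) (by omega) ?_
    rw [← map_one (B.pb (LP.at V)), h0, map_zero]

theorem exists_itg_ne {B : Th} (hB : B.Ax) (K : Type) [Field K] [Algebra ℂ K]
    [Algebra.EssFiniteType ℂ K] : ∃ φ : B.H K, B.itg K φ ≠ 0 := by
  by_contra h
  push Not at h
  exact one_ne_zero' hB _ K rfl (hB.pd 1 fun _ => h _)

theorem Par.nz (h : Par y y') (h' : NZ y') : NZ y := by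
  obtain ⟨c, hc, rfl⟩ := h
  exact Node22.nz_scl h' hc

theorem par_map (h : Par y y') (α : K →ₐ[ℂ] E) : Par (mapP α y) (mapP α y') := by
  obtain ⟨c, hc, rfl⟩ := h
  exact ⟨fun j => α (c j), fun j => (map_ne_zero α).2 (hc j),
    funext fun j => funext fun i => map_mul α _ _⟩

theorem dl_map (α : K →ₐ[ℂ] E) (y y' : Pnt io K) :
    dl (mapP α y) (mapP α y') = fun x => α (dl y y' x) := by
  funext x
  simp only [dl, Node22.wg_apply, map_sub, map_mul]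
  rfl

theorem par_of_map {α : K →ₐ[ℂ] E} (h : NZ y) (h' : NZ y') (hP : Par (mapP α y) (mapP α y')) :
    Par y y' := by
  rw [← Node22.dl_eq_zero ((nz_map α).2 h) ((nz_map α).2 h'), dl_map] at hP
  exact (Node22.dl_eq_zero h h').1 (funext fun x => (map_eq_zero α).1 (congrFun hP x))

theorem eqv_par {d : J → ℕ} {ξ η : Dat io d I K} (h : ξ.Eqv η) (q : I) :
    Par (η.cfg.y q) (ξ.cfg.y q) := by
  obtain ⟨c, hc, e⟩ := Vb37.eqv_cfg h
  exact ⟨c q, hc q, by rw [e]; rfl⟩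

theorem dh_eq (y y' : Pnt io K) : dh y y' = -sz (dl y y') (da y y') := rfl

theorem da_scl (h : NZ y) (h' : NZ y') {c c' : J → K} (hc : ∀ j, c j ≠ 0) (hc' : ∀ j, c' j ≠ 0)
    (x : Dg io) : da (scl c y) (scl c' y') x = da y y' x + pr ℂ (gD c c' x) := by
  rw [da, da, ln_scl h hc, ln_scl h' hc', gD, pr_mul (hc _) (hc' _)]
  abel

theorem dh_scl (h : NZ y) (h' : NZ y') {c c' : J → K} (hc : ∀ j, c j ≠ 0) (hc' : ∀ j, c' j ≠ 0) :
    dh (scl c y) (scl c' y') = dh y y' := by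
  rw [dh_eq, dh_eq, funext (da_scl h h' hc hc'), funext (Node22.dl_scl c c' y y'),
    sz_scl (gD_ne hc hc')]

theorem dh_par (h : Par z y) (h' : Par z' y') (hy : NZ y) (hy' : NZ y') : dh z z' = dh y y' := by
  obtain ⟨c, hc, rfl⟩ := h
  obtain ⟨c', hc', rfl⟩ := h'
  exact dh_scl hy hy' hc hc'

theorem da_map (α : K →ₐ[ℂ] E) (y y' : Pnt io K) :
    da (mapP α y) (mapP α y') = fun x => pb α (da y y' x) := by
  funext x
  rw [da, da, ln_map, ln_map, map_add]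

theorem dh_map (α : K →ₐ[ℂ] E) (y y' : Pnt io K) : dh (mapP α y) (mapP α y') = pb α (dh y y') := by
  rw [dh_eq, dh_eq, dl_map, da_map, ← pb_sz, map_neg]

theorem dh_of_par (h : Par y y') (h' : NZ y') : dh y y' = 0 := by
  rw [dh_eq, (Node22.dl_eq_zero (Par.nz h h') h').2 h, sz_zero, neg_zero]

/-- on the support of the divisor of the diagonal the points agree -/
theorem par_of_dh (h : NZ y) (h' : NZ y') {V : RZ ℂ K} (hV : (dh y y').val V ≠ 1) :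
    Par (rp (plV V) y) (rp (plV V) y') := by
  have hc : ∀ (y : Pnt io K) j, ((ln y j).gen V)⁻¹ ≠ 0 := fun y j => inv_ne_zero (gen_ne _ _)
  have hp : ∀ {y : Pnt io K}, NZ y → Prim V (scl (fun j => ((ln y j).gen V)⁻¹) y) := fun h =>
    prim_scl h fun j => by rw [map_inv₀, v_gen]
  rw [← dh_scl h h' (hc y) (hc y')] at hV
  have h1 := hp h
  have h2 := hp h'
  unfold rp
  change Par (redP _ (scl (fun j => ((ln y j).gen V)⁻¹) y))
    (redP _ (scl (fun j => ((ln y' j).gen V)⁻¹) y'))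
  generalize scl (fun j => ((ln y j).gen V)⁻¹) y = u at hV h1
  generalize scl (fun j => ((ln y' j).gen V)⁻¹) y' = u' at hV h2
  have h3 : ∀ x, (da u u' x).val V = 1 := fun x => by
    rw [da, val_add, h1.val_ln, h2.val_ln, mul_one]
  have h4 : ∀ x, dl u u' x ∈ V.1 := fun x =>
    sub_mem (mul_mem ((h1 _).1 _) ((h2 _).1 _)) (mul_mem ((h1 _).1 _) ((h2 _).1 _))
  have h0 : dl u u' ≠ 0 := fun h0 => hV (by rw [dh_eq, h0, sz_zero, neg_zero, val_zero])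
  rw [dh_eq, val_neg, val_sz h0, Ne, inv_eq_one] at hV
  have h5 : nm (da u u') V (dl u u') ≤ 1 :=
    nm_le.2 fun x => by rw [h3, mul_one]; exact RZ.le_one_iff.2 (h4 x)
  refine Node22.par_red_of_dl (p := plV V) h1 h2 fun x => ?_
  have := le_nm (da u u') V (dl u u') x
  rw [h3, mul_one] at this
  exact this.trans_lt (lt_of_le_of_ne h5 hV)

theorem par_rp_map (θ : K →ₐ[ℂ] L) (V : RZ ℂ L) (h : NZ y) :
    Par (rp (plV V) (mapP θ y)) (mapP (rf θ V) (rp (plV (dn θ V)) y)) := by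
  let z : Cfg io Unit K := ⟨fun _ => y, fun _ => ⊤⟩
  have hz : z.NZ := fun _ => h
  have h1 := Cfg.red_map θ (LP.at V) hz
  rw [Val40.Sq.comp_eq (p := LP.at (dn θ V)) (q := LP.at V) (Val40.sq_rf θ V)] at h1
  obtain ⟨c, hc, e⟩ := (Cfg.map_red (LP.at (dn θ V)) (rf θ V) hz).symm.trans h1
  exact ⟨c (), hc (), congrArg (fun w : Cfg io Unit (Rf V) => w.y ()) e⟩

variable (B : Th) in
/-- the excess polynomial of the tangent space of the ambient space -/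
def cqT (y y' : Pnt io K) : (B.H K)[X] := B.cq (da y y') (TP y y')

theorem om_eq (B : Th) (y y' : Pnt io K) (V : RZ ℂ K) : om B y y' V =
    (cqT B (rp (plV V) y) (rp (plV V) y')).eval (B.pb (LP.at V) (B.c1 (dh y y'))) := rfl

variable {B : Th} (hB : B.Ax)
include hB

theorem cqT_par [Algebra.EssFiniteType ℂ K] (h : Par z y) (h' : Par z' y') (hy : NZ y)
    (hy' : NZ y') : cqT B z z' = cqT B y y' := by
  obtain ⟨c, hc, rfl⟩ := h
  obtain ⟨c', hc', rfl⟩ := h'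
  rw [cqT, Node22.TP_scl hc hc']
  exact hB.cq_dia (a := da y y') (c := gD c c') (gD_ne hc hc') (da_scl hy hy' hc hc') (TP y y')

theorem cqT_map [Algebra.EssFiniteType ℂ K] [Algebra.EssFiniteType ℂ E] (α : K →ₐ[ℂ] E)
    (h : Par y y') (h' : NZ y') :
    (cqT B y y').map (B.pb (LP.hom α) : B.H K →+* B.H E) = cqT B (mapP α y) (mapP α y') := by
  rw [cqT, hB.cq_rd fun x => val_hom α _, rd_eq,
    Node22.TP_red h (prim_hom α (Par.nz h h')) (prim_hom α h'), redP_hom, redP_hom, cqT, da_map]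
  rfl

theorem om_par [Algebra.EssFiniteType ℂ K] (h : Par z y) (h' : Par z' y') (hy : NZ y)
    (hy' : NZ y') {V : RZ ℂ K} (hV : Dvs V) : om B z z' V = om B y y' V := by
  have := essFT_Rf hV
  rw [om_eq, om_eq, dh_par h h' hy hy',
    cqT_par hB (par_rp h hy _) (par_rp h' hy' _) (nz_rp hy _) (nz_rp hy' _)]

theorem om_map [Algebra.EssFiniteType ℂ K] [Algebra.EssFiniteType ℂ L] (θ : K →ₐ[ℂ] L)
    (hy : NZ y) (hy' : NZ y') {V : RZ ℂ L} (hV : Dvs V) (hV' : Dvs (dn θ V))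
    (h : (dh y y').val (dn θ V) ≠ 1) :
    om B (mapP θ y) (mapP θ y') V = B.pb (LP.hom (rf θ V)) (om B y y' (dn θ V)) := by
  have := essFT_Rf hV
  have := essFT_Rf hV'
  rw [om_eq, om_eq, pb_eval, cqT_map hB _ (par_of_dh hy hy' h) (nz_rp hy' _),
    cqT_par hB (par_rp_map θ V hy) (par_rp_map θ V hy') ((nz_map _).2 (nz_rp hy _))
      ((nz_map _).2 (nz_rp hy' _)), dh_map, ← hB.pb_c1_hom,
    Val40.Sq.pb (p := LP.at (dn θ V)) (q := LP.at V) (Val40.sq_rf θ V) hB]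

/-- one term of the splitting formula -/
theorem term (hP : PbdStmt) {T : Tgt io A} {F E₀ : Type} [Field F] [Algebra ℂ F]
    [Algebra.EssFiniteType ℂ F] [Field E₀] [Algebra ℂ E₀] [Algebra.EssFiniteType ℂ E₀]
    [Algebra.EssFiniteType ℂ E] (h0 : 0 < dimP io) {ι : F →ₐ[ℂ] E} {β : E₀ →ₐ[ℂ] E}
    (hd : dimP io + dim ℂ E₀ ≤ dim ℂ E + 1) {w : Cfg io I F} {m : M → I} {w' : Cfg io I' E₀}
    {m' : M → I'} (hw : w.NZ) (hw' : w'.NZ) {Φ : MFam B io M} (hΦ : MCls B T Φ)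
    (hp : ∀ q, Par ((w.map ι).y (m q)) ((w'.map β).y (m' q)))
    (hf : ∀ ω, ful B T (w.map ι) m Φ ω = ful B T (w'.map β) m' Φ ω) {a b : M}
    (hab : Par (w.y (m a)) (w.y (m b))) (h : BD ℂ F) : ∃ n : ℂ,
      (dimP io + dim ℂ E₀ < dim ℂ E + 1 → n = 0) ∧
      deg ι * ful B T w m Φ ((cqT B (w.y (m a)) (w.y (m b))).eval (B.c1 h)) =
        n * ful B T w' m' Φ 1 ∧
      ∀ φ, B.itg E (B.pb (LP.hom ι) ((cqT B (w.y (m a)) (w.y (m b))).eval (B.c1 h)) *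
        B.pb (LP.hom β) φ) = n * B.itg E₀ φ := by
  have h1 : Par (w'.y (m' a)) (w'.y (m' b)) :=
    par_of_map (α := β) (hw' _) (hw' _) ((hp a).symm.trans ((par_map hab ι).trans (hp b)))
  obtain ⟨s, hs⟩ := Nat.exists_eq_succ_of_ne_zero h0.ne'
  have h2 : Module.finrank E₀ (TP (w'.y (m' a)) (w'.y (m' b))) = s + 1 := by
    rw [Node22.finrank_TP h1 (hw' _), hs]
  obtain ⟨n, h3, h4, h5⟩ := (hP B hB T β).2 (cqT B (w'.y (m' a)) (w'.y (m' b))) s ((-1) ^ s)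
    (pb ι h) (natDegree_le_iff_coeff_eq_zero.2 fun n hn => hB.coeff_cq_gt h2 hn)
    (by rw [cqT, hB.coeff_cq_top h2, map_pow, map_neg, map_one]) (by omega)
  have h6 : B.pb (LP.hom ι) ((cqT B (w.y (m a)) (w.y (m b))).eval (B.c1 h)) =
      ((cqT B (w'.y (m' a)) (w'.y (m' b))).map (B.pb (LP.hom β) : B.H E₀ →+* B.H E)).eval
        (B.c1 (pb ι h)) := by
    rw [pb_eval, cqT_map hB ι hab (hw _), cqT_map hB β h1 (hw' _), hB.pb_c1_hom]
    exact congrArg (eval _) (cqT_par hB (hp a) (hp b) (hw'.map β _) (hw'.map β _))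
  refine ⟨n, fun h7 => h3 (by omega), ?_, fun φ => by rw [h6, h4]⟩
  rw [← (hP B hB T ι).1 w m Φ _ hw hΦ, hf, h6, h5 w' m' Φ hw' hΦ]

end Crest.Agent.X262.Wd54
end
end

-- ▼ part X262/Wd54/Spl
section

/-!
# Row 262, road B, WDVV (helper54): the splitting formula from its pieces
-/

set_option autoImplicit false
set_option linter.unusedSectionVars false

noncomputable section

namespace Crest.Agent.X262.Wd54

open Crest.Agent.X277 Crest.Agent.X277.BD Crest.Agent.X277.Pst Crest.Agent.X277.BD.Cyc Polynomial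
open Crest.Agent.X262.Geo (od od_eq_zero essFT_Rf dim_Rf')
open Crest.Agent.X262.Hb Crest.Agent.X262.Vb
open Crest.Agent.X262.Node22 (Par scl chr dimP pair jn)
open Crest.Agent.X262.Val40 (dn rf finsum_pull)
open Crest.Agent.X262.Vb37 (eqv_map eqv_refl eqv_symm eqv_trans nrmUp_map nrmUp_mono dmap_map)
open Crest.Agent.X262.Sym65 (sm)

/-- amalgamation of finite extensions of the two factors of a product -/
def Am2Stmt : Prop :=
  ∀ {K₁ K₂ K L₁ L₂ : Type} [Field K₁] [Algebra ℂ K₁] [Field K₂] [Algebra ℂ K₂] [Field K]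
    [Algebra ℂ K] [Algebra.EssFiniteType ℂ K] [Field L₁] [Algebra ℂ L₁] [Field L₂] [Algebra ℂ L₂]
    (a₁ : K₁ →ₐ[ℂ] K) (a₂ : K₂ →ₐ[ℂ] K), Prd a₁ a₂ → ∀ (θ₁ : K₁ →ₐ[ℂ] L₁) (θ₂ : K₂ →ₐ[ℂ] L₂),
    0 < deg θ₁ → 0 < deg θ₂ → ∃ (L : Type) (_ : Field L) (_ : Algebra ℂ L)
      (_ : Algebra.EssFiniteType ℂ L) (α₁ : L₁ →ₐ[ℂ] L) (α₂ : L₂ →ₐ[ℂ] L) (θ : K →ₐ[ℂ] L),
      Prd α₁ α₂ ∧ α₁.comp θ₁ = θ.comp a₁ ∧ α₂.comp θ₂ = θ.comp a₂ ∧ deg θ = deg θ₁ * deg θ₂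

variable {J : Type} [Fintype J] [DecidableEq J] {io : J → Type} [∀ j, Fintype (io j)]
  [∀ j, DecidableEq (io j)] {A : Type} [Fintype A] {I I' I₁ I₂ M M₁ M₂ : Type} [Fintype I]
  [Fintype I'] [Fintype I₁] [Fintype I₂] {K E L : Type} [Field K] [Algebra ℂ K] [Field E]
  [Algebra ℂ E] [Field L] [Algebra ℂ L] {B : Th} {T : Tgt io A} {d d₁ d₂ : J → ℕ}

theorem nz_cfg (ξ : Dat io d I K) : ξ.cfg.NZ := fun _ => Vb37.nz_pt ξ _

theorem nz_pair {z₁ : Cfg io I₁ K} {z₂ : Cfg io I₂ K} (h₁ : z₁.NZ) (h₂ : z₂.NZ) :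
    (pair z₁ z₂).NZ
  | .inl q => h₁ q
  | .inr q => h₂ q

theorem nz_gl (ξ₁ : Dat io d₁ I₁ K) (ξ₂ : Dat io d₂ I₂ K) (q₁ : I₁) (q₂ : I₂) :
    (gl ξ₁ ξ₂ q₁ q₂).NZ := nz_pair (nz_cfg ξ₁) (nz_cfg ξ₂)

theorem mcls_ten {Φ₁ : MFam B io M₁} {Φ₂ : MFam B io M₂} (h₁ : MCls B T Φ₁) (h₂ : MCls B T Φ₂) :
    MCls B T (ten Φ₁ Φ₂) := (h₁.comp Sum.inl).mul (h₂.comp Sum.inr)

theorem mcls_ins {Φ : MFam B io M} (h : MCls B T Φ) (n : M) {e : Fam B io} (he : Cls B T e) :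
    MCls B T (ins Φ n e) := h.mul (he.at n)

theorem Tv.map {i₀ : (j : J) → io j} {u : Vr io → K} {ξ ξ' : Dat io d M K} (h : Tv i₀ u ξ ξ')
    (θ : K →ₐ[ℂ] L) : Tv i₀ (fun v => θ (u v)) (ξ.map θ) (ξ'.map θ) :=
  ⟨fun j => (congrArg θ (h.1 j)).trans (map_zero θ), funext fun q => congrArg (Option.map θ) (congrFun h.2.1 q),
    fun j i => by simp [Dat.map, h.2.2]⟩

theorem cfg_map_y (α : K →ₐ[ℂ] L) (ξ : Dat io d M K) (q : M) :
    (ξ.map α).cfg.y q = mapP α (ξ.cfg.y q) :=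
  funext fun j => funext fun i => Vb37.dmap_pt α ξ _ j i

theorem ful_eq_vir {z : Cfg io I E} (h : ¬z.On T) (m : M → I) (Φ : MFam B io M) :
    ful B T z m Φ 1 = vir B T z m Φ := by
  simp only [ful, if_neg h, map_one, one_mul, vir]

/-- without points on the target all numbers vanish -/
theorem vir_empty [Algebra.EssFiniteType ℂ E] (h : ∀ {K : Type} [Field K] [Algebra ℂ K]
    (y : Pnt io K), NZ y → ¬T.On y) {z : Cfg io I E} (hz : z.NZ) (q : I) (m : M → I)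
    (Φ : MFam B io M) : vir B T z m Φ = 0 :=
  vir_eq_zero fun _ _ h1 => (h _ (hz.red _ q) (on_at hz h1 q)).elim

open Classical in
/-- the contribution of one component of the diagonal -/
theorem term_eq (hB : B.Ax) (hP : PbdStmt) (hC : Class2Stmt) (h0 : 0 < dimP io) {N : ℕ}
    (hL : ∀ {I I' M E : Type} [Fintype I] [Fintype I'] [Field E]
      [Algebra ℂ E] [Algebra.EssFiniteType ℂ E] (z : Cfg io I E) (m : M → I) (z' : Cfg io I' E)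
      (m' : M → I') (Φ : MFam B io M) (ω : B.H E), MCls B T Φ → Lat N z m z' m' →
      ful B T z m Φ ω = ful B T z' m' Φ ω)
    [Fintype M₁] [Fintype M₂] {k I₁' I₂' : Type} [Field k] [Algebra ℂ k] [Fintype I₁']
    [Fintype I₂'] [Algebra.EssFiniteType ℂ k] [Algebra.EssFiniteType ℂ L]
    [Algebra.EssFiniteType ℂ E] {ζ₁ : Dat io d₁ M₁ k} {ζ₂ : Dat io d₂ M₂ k} {n₁ : M₁} {n₂ : M₂}
    (hG : GUniv ζ₁ ζ₂ n₁ n₂) {γ : k →ₐ[ℂ] L} (hd : dim ℂ L = dim ℂ k + dimP io)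
    {i₀ : (j : J) → io j} {u : Vr io → L} {ζ₂' : Dat io d₂ M₂ L}
    (hi : ∀ j, ζ₂.cfg.y n₂ j (i₀ j) ≠ 0) (hu : Tv i₀ u (ζ₂.map γ) ζ₂') {η₁ : Dat io d₁ I₁ L}
    {η₂ : Dat io d₂ I₂ L} {m₁ : M₁ → I₁} {m₂ : M₂ → I₂} (e₁ : (ζ₁.map γ).Eqv (η₁.res m₁))
    (e₂ : ζ₂'.Eqv (η₂.res m₂)) (r₁ : η₁.NrmUp N) (r₂ : η₂.NrmUp N) {θ : k →ₐ[ℂ] E}
    {ξ₁ : Dat io d₁ I₁' E} {ξ₂ : Dat io d₂ I₂' E} {m₁' : M₁ → I₁'} {m₂' : M₂ → I₂'}
    (hθ : 0 < deg θ) (f₁ : (ζ₁.map θ).Eqv (ξ₁.res m₁')) (f₂ : (ζ₂.map θ).Eqv (ξ₂.res m₂'))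
    (s₁ : ξ₁.NrmUp N) (s₂ : ξ₂.NrmUp N) {Φ : MFam B io (M₁ ⊕ M₂)} (hΦ : MCls B T Φ) (φ : B.H k)
    {V : RZ ℂ L} (hV : Dvs V) (h : (dh (η₁.cfg.y (m₁ n₁)) (η₂.cfg.y (m₂ n₂))).val V ≠ 1) :
    deg θ * B.itg k φ *
      ful B T (jn ((pair η₁.cfg η₂.cfg).red (plV V)) (.inl (m₁ n₁)) (.inr (m₂ n₂)))
        (Sum.map m₁ m₂) Φ (om B (η₁.cfg.y (m₁ n₁)) (η₂.cfg.y (m₂ n₂)) V) =
      ful B T (gl ξ₁ ξ₂ (m₁' n₁) (m₂' n₂)) (Sum.map m₁' m₂') Φ 1 *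
        if ∀ x, γ x ∈ V.1 then B.itg (Rf V) (om B (η₁.cfg.y (m₁ n₁)) (η₂.cfg.y (m₂ n₂)) V *
          B.pb ((LP.hom γ).comp (LP.at V)) φ) else 0 := by
  have := essFT_Rf hV
  have hp := par_of_dh (nz_cfg η₁ _) (nz_cfg η₂ _) h
  have hw : (jn ((pair η₁.cfg η₂.cfg).red (plV V)) (.inl (m₁ n₁)) (.inr (m₂ n₂))).NZ :=
    (nz_pair (nz_cfg η₁) (nz_cfg η₂)).red _
  obtain ⟨F, _, _, _, ι, hι, H⟩ := hC N ζ₁ ζ₂ n₁ n₂ hG γ i₀ u ζ₂' hi hu η₁ η₂ m₁ m₂ e₁ e₂ r₁ r₂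
    θ ξ₁ ξ₂ m₁' m₂' hθ f₁ f₂ s₁ s₂ V hV hp
  have h1 := (deg_pos_iff ι).1 hι
  have h2 := dim_Rf' hV
  have h3 := (deg_pos_iff θ).1 hθ
  have hι' : (deg ι : ℂ) ≠ 0 := Nat.cast_ne_zero.2 hι.ne'
  rw [om_eq, hB.pb_c1]
  rcases H with ⟨h4, E', I', _, _, _, β, z', m', h5, h6⟩ | ⟨h4, β, h5, h6⟩
  · have := Wd.essFT_of_hom β
    obtain ⟨n, h7, h8, -⟩ := term hB hP h0 (by omega) hw (fun q => (nz_map β).1 (h6.nz.2 q)) hΦ
      h6.par (fun ω => hL _ _ _ _ Φ ω hΦ h6) (a := .inl n₁) (b := .inr n₂) hp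
      ((LP.at V).rs (dh (η₁.cfg.y (m₁ n₁)) (η₂.cfg.y (m₂ n₂))))
    rw [h7 (by omega), zero_mul, mul_eq_zero, or_iff_right hι'] at h8
    rw [if_neg h4, mul_zero]
    exact mul_eq_zero_of_right _ h8
  · obtain ⟨n, -, h8, h9⟩ := term hB hP h0 (by omega) hw (nz_gl _ _ _ _) hΦ
      h6.par (fun ω => hL _ _ _ _ Φ ω hΦ h6) (a := .inl n₁) (b := .inr n₂) hp
      ((LP.at V).rs (dh (η₁.cfg.y (m₁ n₁)) (η₂.cfg.y (m₂ n₂))))
    have h10 := h9 (B.pb (LP.hom θ) φ)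
    rw [hB.deg, ← hB.pb_comp, show (LP.hom θ).comp (LP.hom β) =
      ((LP.hom γ).comp (LP.at V)).comp (LP.hom ι) from LP.ext fun x => by
        simp only [LP.r_comp, LP.r_hom]; exact h5 x, hB.pb_comp, ← map_mul, hB.deg] at h10
    rw [if_pos h4]
    refine mul_left_cancel₀ hι' ?_
    rw [mul_left_comm (deg ι : ℂ), mul_left_comm (deg ι : ℂ)]
    refine (congrArg _ h8).trans (Eq.trans ?_ (congrArg _ h10).symm)
    ring

/-- **SPLIT** -/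
theorem split_of (hA : Ax0Stmt) (hE : ExNrm) (hN : NodeStmt) (hPr : ProdStmt) (hO : OrdStmt)
    (hP : PbdStmt) (hC : Class2Stmt) (hCh : ChartStmt) (hNo : NotOnStmt) (hAm : Am2Stmt) :
    SplitStmt := by
  intro B hB J _ _ io _ _ A _ T c hS ι _ e e' he he' hD d₁ d₂
  classical
  obtain ⟨N₀, hL⟩ := latStmt B hB T c hS
  obtain ⟨N₁, hN⟩ := hN B hB T c hS d₁ d₂
  obtain ⟨N₂, hPr⟩ := hPr B hB T c hS e e' he he' hD d₁ d₂
  refine ⟨N₀, ?_⟩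
  intro M₁ M₂ k E I₁ I₂ _ _ _ _ _ _ _ _ _ ζ₁ ζ₂ n₁ n₂ hG θ ξ₁ ξ₂ m₁ m₂ hθ f₁ f₂ s₁ s₂ Φ₁ Φ₂ hΦ₁ hΦ₂
  have := Wd.essFT_of_hom θ
  obtain ⟨K, K₁, K₂, _, _, _, _, _, _, _, γ, a₁, a₂, i₀, u, ζ₂', ω₁, ω₂, hi, hu, u₁, u₂, ha, e₁, e₂,
    hd, hg⟩ := hCh ζ₁ ζ₂ n₁ n₂ hG
  have := Vb37.univ_essFT u₁
  have := Vb37.univ_essFT u₂
  choose P₁ g₁ using fun l => (hA B hB T c d₁ (hS.good d₁)).gw _ (mcls_ins hΦ₁ n₁ (he l))
  choose P₂ g₂ using fun l => (hA B hB T c d₂ (hS.good d₂)).gw _ (mcls_ins hΦ₂ n₂ (he' l))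
  obtain ⟨N, b₀, b₁, b₂, b₃, b₄⟩ : ∃ N, N₀ ≤ N ∧ N₁ ≤ N ∧ N₂ ≤ N ∧ (∀ l, P₁ l ≤ N) ∧ ∀ l, P₂ l ≤ N :=
    ⟨N₀ + N₁ + N₂ + ∑ l, P₁ l + ∑ l, P₂ l, by omega, by omega, by omega, fun l => by
      have := Finset.single_le_sum (f := P₁) (fun _ _ => Nat.zero_le _) (Finset.mem_univ l)
      omega, fun l => by
      have := Finset.single_le_sum (f := P₂) (fun _ _ => Nat.zero_le _) (Finset.mem_univ l)
      omega⟩
  obtain ⟨L₁, _, _, _, θ₁, p₁, η₁, t₁, q₁, r₁⟩ := hE ω₁ N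
  obtain ⟨L₂, _, _, _, θ₂, p₂, η₂, t₂, q₂, r₂⟩ := hE ω₂ N
  have v₁ := fun l => g₁ l L₁ K₁ _ η₁ Sum.inl θ₁ ⟨ω₁, u₁, q₁ ▸ eqv_refl _⟩ (nrmUp_mono r₁ (b₃ l))
  have v₂ := fun l => g₂ l L₂ K₂ _ η₂ Sum.inl θ₂ ⟨ω₂, u₂, q₂ ▸ eqv_refl _⟩ (nrmUp_mono r₂ (b₄ l))
  have t₁' : (deg θ₁ : ℂ) ≠ 0 := Nat.cast_ne_zero.2 t₁.ne'
  have t₂' : (deg θ₂ : ℂ) ≠ 0 := Nat.cast_ne_zero.2 t₂.ne'
  rcases Nat.eq_zero_or_pos (dimP io) with h0 | h0
  · have h1 : ∀ {K : Type} [Field K] [Algebra ℂ K] (y : Pnt io K), NZ y → ¬T.On y :=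
      fun y hy ho => ((hNo T hS.1).1 y hy ho).ne' h0
    rw [ful_eq_vir fun ho => h1 _ (nz_gl _ _ _ _ _) (ho (.inl (m₁ n₁))),
      vir_empty h1 (nz_gl _ _ _ _) (.inl (m₁ n₁)), Finset.sum_eq_zero, mul_zero]
    intro l _
    rw [(mul_eq_zero.1 ((v₁ l).symm.trans (vir_empty h1 (nz_cfg η₁) (.inl n₁) _ _))).resolve_left
      t₁', zero_mul]
  obtain ⟨L, _, _, _, α₁, α₂, τ, hα, c₁, c₂, hτ⟩ := hAm a₁ a₂ ha θ₁ θ₂ t₁ t₂
  obtain ⟨φ, hφ⟩ := exists_itg_ne hB k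
  have o₁ : ¬T.On (η₁.cfg.y (.inl n₁)) := fun ho => (hNo T hS.1).2 ω₁ u₁ n₁ ((on_map T θ₁).1 (by
    rw [← cfg_map_y, ← q₁]; exact ho))
  have o₂ : ¬T.On (η₂.cfg.y (.inl n₂)) := fun ho => (hNo T hS.1).2 ω₂ u₂ n₂ ((on_map T θ₂).1 (by
    rw [← cfg_map_y, ← q₂]; exact ho))
  have x₁ : (ζ₁.map (τ.comp γ)).Eqv ((η₁.map α₁).res Sum.inl) := by
    rw [← Vb37.dmap_res, q₁, dmap_map, c₁, ← dmap_map, ← dmap_map]
    exact eqv_map e₁ τ
  have x₂ : (ζ₂'.map τ).Eqv ((η₂.map α₂).res Sum.inl) := by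
    rw [← Vb37.dmap_res, q₂, dmap_map, c₂, ← dmap_map]
    exact eqv_map e₂ τ
  have y₁ : Par ((η₁.map α₁).cfg.y (.inl n₁)) (mapP τ (mapP γ (ζ₁.cfg.y n₁))) := by
    have := eqv_par x₁ n₁
    rwa [cfg_map_y (τ.comp γ)] at this
  have y₂ : Par ((η₂.map α₂).cfg.y (.inl n₂)) (mapP τ (ζ₂'.cfg.y n₂)) := by
    have := eqv_par x₂ n₂
    rwa [cfg_map_y τ] at this
  have z₁ := (nz_map γ).2 (nz_cfg ζ₁ n₁)
  have z₂ := nz_cfg ζ₂' n₂
  have hH := (dh_par y₁ y₂ ((nz_map τ).2 z₁) ((nz_map τ).2 z₂)).trans (dh_map τ _ _)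
  have hO' := hO B hB γ (ζ₁.cfg.y n₁) (ζ₂'.cfg.y n₂) (nz_cfg ζ₁ n₁) z₂ h0 hd hg φ
  have hp : ¬Par ((η₁.map α₁).cfg.y (.inl n₁)) ((η₂.map α₂).cfg.y (.inl n₂)) := fun hp => hφ (by
    rw [← hO', show dh (fun j i => γ (ζ₁.cfg.y n₁ j i)) (ζ₂'.cfg.y n₂) = 0 from
      dh_of_par (par_of_map z₁ z₂ (y₁.symm.trans (hp.trans y₂))) z₂]
    simp)
  have h1 := hPr α₁ α₂ hα η₁ η₂ Sum.inl Sum.inl n₁ n₂ Φ₁ Φ₂ hΦ₁ hΦ₂ (nrmUp_mono r₁ b₂)
    (nrmUp_mono r₂ b₂) (fun h => o₁ (h _)) fun h => o₂ (h _)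
  rw [hN _ _ _ _ _ _ (mcls_ten hΦ₁ hΦ₂) (nrmUp_map (nrmUp_mono r₁ b₁) α₁)
    (nrmUp_map (nrmUp_mono r₂ b₁) α₂) (fun h => o₁ ((on_map T α₁).1 (by
      rw [← cfg_map_y]; exact h (.inl (.inl n₁))))) hp] at h1
  have hτ' : 0 < deg τ := hτ ▸ Nat.mul_pos t₁ t₂
  have h2 := congrArg (fun x => deg θ * B.itg k φ * x) h1
  change _ * sm _ _ = _ at h2
  rw [← sm_smul, sm_congr fun V hV h => term_eq hB hP hC h0 (hL N₀ le_rfl) hG
    (((deg_pos_iff τ).1 hτ').trans hd) hi (by simpa only [dmap_map] using hu.map τ) x₁ x₂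
    (nrmUp_map (nrmUp_mono r₁ b₀) α₁) (nrmUp_map (nrmUp_mono r₂ b₀) α₂) hθ f₁ f₂ s₁ s₂
    (mcls_ten hΦ₁ hΦ₂) φ hV h, sm_smul, hH, sm, finsum_pull τ _ _ _ ?_] at h2
  · erw [hO'] at h2
    simp only [v₁, v₂] at h2
    refine mul_right_cancel₀ (mul_ne_zero (mul_ne_zero t₁' t₂') hφ) ?_
    rw [hτ, Nat.cast_mul] at h2
    rw [h2, Finset.mul_sum, Finset.mul_sum, Finset.sum_mul]
    exact Finset.sum_congr rfl fun l _ => by ring
  · intro V hV hV' h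
    have := essFT_Rf hV
    have := essFT_Rf hV'
    by_cases h3 : ∀ x, γ x ∈ (dn τ V).1
    · rw [if_pos h3, if_pos (show ∀ x, τ.comp γ x ∈ V.1 from h3), om_par hB y₁ y₂ ((nz_map τ).2 z₁) ((nz_map τ).2 z₂) hV,
        om_map hB τ z₁ z₂ hV hV' ((od_eq_zero hV').not.1 h), ← hB.deg,
        map_mul (B.pb (LP.hom (rf τ V))), ← hB.pb_comp]
      congr 3
      exact congrArg B.pb (LP.ext fun x => by
        simp only [LP.r_comp, LP.r_hom]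
        exact (Val40.rf_r τ V (γ x)).symm)
    · rw [if_neg h3, if_neg (show ¬∀ x, τ.comp γ x ∈ V.1 from h3), mul_zero]

end Crest.Agent.X262.Wd54
end
end

-- ▼ part X262/Cl49/Near
section

/-!
# Row 262, road B (helper49): data with the same reduction

* `Near V ξ ξ'`, `geq_red_near`, `exists_ref` : close data have a common norming refinement;
* `tv`, `Tv.*` : transvections;
* `lat_near`, `lat_sq` : glued reductions of close pairs.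
-/

set_option autoImplicit false
set_option linter.unusedSectionVars false

noncomputable section

namespace Crest.Agent.X262.Cl49

open Crest.Agent.X277 Crest.Agent.X277.BD Crest.Agent.X277.BD.Cyc
open Polynomial hiding funext
open Crest.Agent.X262.Hb Crest.Agent.X262.Vb Crest.Agent.X262.Vb37
open Crest.Agent.X262.Node22 (scl chr chr_ne Par pair jn)
open Crest.Agent.X262.Wd54 (NP GeqN Lat rp Tv)
open Crest.Agent.X262.Vb.Cfg (Geq)
open Crest.Agent.X262.Val40 (Sq)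

variable {J : Type} [Fintype J] [DecidableEq J] {io : J → Type} [∀ j, Fintype (io j)]
  [∀ j, DecidableEq (io j)]
variable {K E L : Type} [Field K] [Algebra ℂ K] [Field E] [Algebra ℂ E] [Field L] [Algebra ℂ L]
variable {I I' I₁ I₂ I₁' I₂' M M₁ M₂ : Type} [Fintype I] [Fintype I'] [Fintype I₁]
  [Fintype I₂] [Fintype I₁'] [Fintype I₂'] {N : ℕ} {d d₁ d₂ : J → ℕ}

/-- close configurations have the same reduction -/
theorem geq_red_near {z z' : Cfg io I K} (hz : z.NZ) (hV : ∀ κ, z'.V κ = z.V κ) (p : Pl ℂ K ℂ E)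
    (h : ∀ q j i, p.V.v (z'.y q j i - z.y q j i) < (ln (z.y q) j).val p.V) :
    Geq (z'.red p) (z.red p) := by
  have hP := Cfg.pr_nrm hz p.V
  have h1 : ∀ q j i, p.V.v ((z'.gau (z.nrm p.V)).y q j i - (z.gau (z.nrm p.V)).y q j i) < 1 :=
    fun q j i => by
      change p.V.v (_ * _ - _ * _) < 1
      rw [← mul_sub, map_mul, Val40.v_nrm, inv_mul_lt_one₀ (val_pos _ _)]
      exact h q j i
  have h2 : ∀ q j i, (z'.gau (z.nrm p.V)).y q j i ∈ p.V.1 := fun q j i => by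
    simpa using add_mem (RZ.le_one_iff.1 (h1 q j i).le) ((hP q j).1 i)
  have h3 : ∀ q j i, p.r ((z'.gau (z.nrm p.V)).y q j i) = p.r ((z.gau (z.nrm p.V)).y q j i) :=
    fun q j i => by
      rw [← sub_eq_zero, ← Pl.r_sub (h2 q j i) ((hP q j).1 i)]
      exact (Pl.r_eq_zero (RZ.le_one_iff.1 (h1 q j i).le)).2 (h1 q j i)
  have hP' : (z'.gau (z.nrm p.V)).Pr p.V := fun q j => ⟨h2 q j, (hP q j).2.imp fun i hi =>
    Pl.r_ne_zero_iff.1 (h3 q j i ▸ Pl.r_ne_zero_iff.2 hi)⟩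
  refine ((Cfg.geq_gau z' (Cfg.nrm_ne p.V z)).red_red0 hP').trans (Geq.of_eq ?_)
  exact Cfg.ext (fun q => funext fun j => funext fun i => h3 q j i) fun κ => by
    change redS p (sclS _ (z'.V κ)) = redS p (sclS _ (z.V κ))
    rw [hV]

/-- the maps are close at `V` -/
def Near (V : RZ ℂ K) (ξ : Dat io d I K) (ξ' : Dat io d I' K) : Prop :=
  ∀ t j i, V.v (ξ'.pt t j i - ξ.pt t j i) < (ln (ξ.pt t) j).val V

theorem near_refl (V : RZ ℂ K) (ξ : Dat io d M K) : Near V ξ ξ := fun t j i => by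
  rw [sub_self, map_zero]
  exact val_pos _ _

theorem geq_cfg {ξ η : Dat io d I K} (h : ξ.Eqv η) : Geq ξ.cfg η.cfg := eqv_cfg h

theorem cfg_V {ξ η : Dat io d I K} (h : ξ.x = η.x) (κ : J → ℕ) : ξ.cfg.V κ = η.cfg.V κ := by
  have : ∀ n, ξ.evl n = η.evl n := fun n => LinearMap.ext fun σ => funext fun q =>
    congrArg (Bub96.hv n σ) (congrFun h q)
  simp only [Dat.cfg, this]

theorem exists_ref0 {V : RZ ℂ K} {η : Dat io d I K} {ξ : Dat io d I' K} (h : Near V η ξ)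
    {m : M → I} {m' : M → I'} (hx : ∀ a, η.x (m a) = ξ.x (m' a)) (hη : η.NrmUp N)
    (hξ : ξ.NrmUp N) : ∃ w, Ref N w (η.cfg.red (plV V)) m (ξ.cfg.red (plV V)) m' := by
  let η' : Dat io d (I ⊕ I') K := ⟨η.f, Sum.elim η.x ξ.x, η.cp⟩
  let ξ' : Dat io d (I ⊕ I') K := ⟨ξ.f, Sum.elim η.x ξ.x, ξ.cp⟩
  have e1 : η'.res Sum.inl = η := rfl
  have e2 : ξ'.res Sum.inr = ξ := rfl
  have h1 : NP N η'.cfg Sum.inl := np_cfg η' (e1 ▸ hη)
  have h2 : NP N ξ'.cfg Sum.inr := np_cfg ξ' (e2 ▸ hξ)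
  have h3 : Geq (ξ'.cfg.red (plV V)) (η'.cfg.red (plV V)) :=
    geq_red_near (nz_cfg η') (cfg_V (ξ := ξ') (η := η') rfl) _ fun q => h (η'.x q)
  refine ⟨η'.cfg.red (plV V), (nz_cfg η').red _, (mul_cfg η').red (nz_cfg η') _,
    np_red h1 (nz_cfg _) V, np_geqN (np_red h2 (nz_cfg _) V) ((nz_cfg _).red _) (geqN_of_geq h3),
    ?_, geqN_trans (geqN_of_geq (h3.symm.res _)) ?_,
    fun a => (sam_cfg (ξ := η') (q := .inl (m a)) (q' := .inr (m' a)) (hx a)).red _⟩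
  · have := (res_red h1 (nz_cfg _) (plV V)).geqN
    rwa [← cfg_res, e1] at this
  · have := (res_red h2 (nz_cfg _) (plV V)).geqN
    rwa [← cfg_res, e2] at this

/-- norming extensions of close data have a common refinement after reduction -/
theorem exists_ref {V : RZ ℂ K} {ζ ζ' : Dat io d M K} (h : Near V ζ ζ') (hx : ζ'.x = ζ.x)
    {η : Dat io d I K} {ξ : Dat io d I' K} {m : M → I} {m' : M → I'} (h₁ : ζ.Eqv (η.res m))
    (h₂ : ζ'.Eqv (ξ.res m')) (hη : η.NrmUp N) (hξ : ξ.NrmUp N) :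
    ∃ w, Ref N w (η.cfg.red (plV V)) m (ξ.cfg.red (plV V)) m' := by
  obtain ⟨η', e₁, rfl⟩ := eqv_extend (eqv_symm h₁)
  obtain ⟨ξ', e₂, rfl⟩ := eqv_extend (eqv_symm h₂)
  obtain ⟨w, hw⟩ := exists_ref0 (η := η') (ξ := ξ') (m := m) (m' := m') h
    (fun a => (congrFun hx a).symm) (eqv_nrmUp e₁ hη) (eqv_nrmUp e₂ hξ)
  exact ⟨w, hw.congr (geqN_of_geq ((geq_cfg e₁).red (nz_cfg _) _).symm)
    (geqN_of_geq ((geq_cfg e₂).red (nz_cfg _) _).symm)⟩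

theorem lat_near {V : RZ ℂ K} {ζ₁ ζ₁' : Dat io d₁ M₁ K} {ζ₂ ζ₂' : Dat io d₂ M₂ K}
    (a₁ : Near V ζ₁ ζ₁') (b₁ : ζ₁'.x = ζ₁.x) (a₂ : Near V ζ₂ ζ₂') (b₂ : ζ₂'.x = ζ₂.x)
    {η₁ : Dat io d₁ I₁ K} {η₂ : Dat io d₂ I₂ K} {ξ₁ : Dat io d₁ I₁' K} {ξ₂ : Dat io d₂ I₂' K}
    {m₁ : M₁ → I₁} {m₂ : M₂ → I₂} {m₁' : M₁ → I₁'} {m₂' : M₂ → I₂'} (c₁ : ζ₁.Eqv (η₁.res m₁))
    (c₂ : ζ₂.Eqv (η₂.res m₂)) (c₁' : ζ₁'.Eqv (ξ₁.res m₁')) (c₂' : ζ₂'.Eqv (ξ₂.res m₂'))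
    (e₁ : η₁.NrmUp N) (e₂ : η₂.NrmUp N) (e₁' : ξ₁.NrmUp N) (e₂' : ξ₂.NrmUp N) (n₁ : M₁) (n₂ : M₂) :
    Lat N (jn ((pair η₁.cfg η₂.cfg).red (plV V)) (.inl (m₁ n₁)) (.inr (m₂ n₂))) (Sum.map m₁ m₂)
      (jn ((pair ξ₁.cfg ξ₂.cfg).red (plV V)) (.inl (m₁' n₁)) (.inr (m₂' n₂)))
      (Sum.map m₁' m₂') := by
  obtain ⟨w₁, h₁⟩ := exists_ref a₁ b₁ c₁ c₁' e₁ e₁'
  obtain ⟨w₂, h₂⟩ := exists_ref a₂ b₂ c₂ c₂' e₂ e₂'
  rw [Node22.pair_red, Node22.pair_red]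
  exact lat_of_ref h₁ h₂ n₁ n₂

/-- gluing, reduction and a square of places -/
theorem geq_sq {E' : Type} [Field E'] [Algebra ℂ E'] {a : K →ₐ[ℂ] L} {p : Pl ℂ K ℂ E}
    {q : Pl ℂ L ℂ E'} {ρ : E →ₐ[ℂ] E'} (S : Sq a p q ρ) (η₁ : Dat io d₁ I₁ K)
    (η₂ : Dat io d₂ I₂ K) {n₁ : I₁} {n₂ : I₂} (h : Par (rp p (η₁.cfg.y n₁)) (rp p (η₂.cfg.y n₂))) :
    Geq (jn ((pair (η₁.map a).cfg (η₂.map a).cfg).red q) (.inl n₁) (.inr n₂))
      ((jn ((pair η₁.cfg η₂.cfg).red p) (.inl n₁) (.inr n₂)).map ρ) := by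
  rw [jn_map ρ (z := (pair η₁.cfg η₂.cfg).red p) (q := .inl n₁) (q' := .inr n₂) h
    ((nz_pair (nz_cfg _) (nz_cfg _)).red p _), cfg_map, cfg_map, ← pair_map]
  exact geq_jn (Geq.symm (S.red _)) _ _

theorem sq_rf (a : K →ₐ[ℂ] L) (W : RZ ℂ L) : Sq a (plV (Val40.dn a W)) (plV W) (Val40.rf a W) :=
  ⟨fun _ => Iff.rfl, fun x => (Val40.rf_r a W x).symm⟩

/-! ### points -/

theorem prim_gen {y : Pnt io K} (h : NZ y) (V : RZ ℂ K) :
    Prim V (scl (fun j => ((ln y j).gen V)⁻¹) y) := prim_scl h fun j => by rw [map_inv₀, v_gen]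

theorem par_rp {y y' : Pnt io K} (h : Par y y') (h' : NZ y') (p : Pl ℂ K ℂ E) :
    Par (rp p y) (rp p y') := by
  have h0 : NZ y := by
    obtain ⟨c, hc, rfl⟩ := h
    exact Node22.nz_scl h' hc
  exact (h.scl (fun _ => inv_ne_zero (gen_ne _ _)) fun _ => inv_ne_zero (gen_ne _ _)).red
    (prim_gen h0 _) (prim_gen h' _)

theorem par_eqv {ξ : Dat io d M K} {η : Dat io d I K} {m : M → I} [Fintype M]
    (h : ξ.Eqv (η.res m)) (a : M) : Par (η.cfg.y (m a)) (ξ.cfg.y a) :=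
  geqN_par (N := 0) (geqN_of_geq (geq_cfg h)) a

theorem par_map (α : K →ₐ[ℂ] L) {y y' : Pnt io K} : Par (mapP α y) (mapP α y') ↔ Par y y' := by
  refine ⟨fun ⟨c, hc, h⟩ => ?_, fun ⟨c, hc, h⟩ => ⟨fun j => α (c j),
    fun j => (map_ne_zero α).2 (hc j), by
      funext j i
      rw [h]
      exact map_mul α _ _⟩⟩
  have hα : Function.Injective α := α.injective
  have key : ∀ j, ∃ e : K, e ≠ 0 ∧ ∀ i, y j i = e * y' j i := fun j => by
    have h1 : ∀ i, α (y j i) = c j * α (y' j i) := fun i => congrFun (congrFun h j) i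
    by_cases h0 : ∃ i, y' j i ≠ 0
    · obtain ⟨i₀, h0⟩ := h0
      have h2 : α (y j i₀ / y' j i₀) = c j := by
        rw [map_div₀, h1, mul_div_cancel_right₀ _ ((map_ne_zero α).2 h0)]
      exact ⟨_, (map_ne_zero α).1 (h2 ▸ hc j), fun i => hα (by rw [map_mul, h2, h1])⟩
    · push Not at h0
      exact ⟨1, one_ne_zero, fun i => hα (by rw [h1, h0, mul_zero, map_zero, mul_zero])⟩
  choose e he using key
  exact ⟨e, fun j => (he j).1, funext fun j => funext (he j).2⟩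

theorem cfg_map_y (α : K →ₐ[ℂ] L) (ξ : Dat io d M K) (a : M) :
    (ξ.map α).cfg.y a = mapP α (ξ.cfg.y a) :=
  funext fun j => funext fun i => dmap_pt α ξ _ j i

/-- points with the same reduction have close affine coordinates -/
theorem near_of_par {y y' : Pnt io K} {p : Pl ℂ K ℂ E} (h : Par (rp p y) (rp p y')) (hy : NZ y)
    (hy' : NZ y') {j : J} {i₁ : io j} (h₁ : p.V.v (y j i₁) = (ln y j).val p.V) :
    y j i₁ ≠ 0 ∧ y' j i₁ ≠ 0 ∧ ∀ i, p.V.v (y' j i / y' j i₁ - y j i / y j i₁) < 1 := by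
  obtain ⟨c, hc, h⟩ := h
  set n := ((ln y j).gen p.V)⁻¹ with hn
  set n' := ((ln y' j).gen p.V)⁻¹ with hn'
  have hP : ∀ i, n * y j i ∈ p.V.1 := (prim_gen hy p.V j).1
  have hP' : ∀ i, n' * y' j i ∈ p.V.1 := (prim_gen hy' p.V j).1
  have hn0 : n ≠ 0 := inv_ne_zero (gen_ne _ _)
  have hn0' : n' ≠ 0 := inv_ne_zero (gen_ne _ _)
  have h2 : ∀ i, p.r (n * y j i) = c j * p.r (n' * y' j i) := fun i => congrFun (congrFun h j) i
  have h3 : p.V.v (n * y j i₁) = 1 := by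
    rw [map_mul, hn, map_inv₀, v_gen, h₁, inv_mul_cancel₀ (val_ne _ _)]
  have h4 : p.V.v (n' * y' j i₁) = 1 := Pl.r_ne_zero_iff.1 fun h0 =>
    Pl.r_ne_zero_iff.2 h3 (by rw [h2, h0, mul_zero])
  have h5 : y j i₁ ≠ 0 := fun h0 => by simp [h0] at h3
  have h6 : y' j i₁ ≠ 0 := fun h0 => by simp [h0] at h4
  refine ⟨h5, h6, fun i => ?_⟩
  have e : y' j i / y' j i₁ - y j i / y j i₁ =
      ((n' * y' j i) * (n * y j i₁) - (n * y j i) * (n' * y' j i₁)) /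
        ((n' * y' j i₁) * (n * y j i₁)) := by field_simp
  rw [e, map_div₀, map_mul, h3, h4, one_mul, div_one,
    ← Pl.r_eq_zero (sub_mem (mul_mem (hP' i) (hP i₁)) (mul_mem (hP i) (hP' i₁))),
    Pl.r_sub (mul_mem (hP' i) (hP i₁)) (mul_mem (hP i) (hP' i₁)), Pl.r_mul (hP' i) (hP i₁),
    Pl.r_mul (hP i) (hP' i₁), h2, h2]
  ring

/-! ### transvections -/

/-- the transvection of a datum -/
def tv (ξ : Dat io d M K) (i₀ : (j : J) → io j) (u : Vr io → K) (hu : ∀ j, u ⟨j, i₀ j⟩ = 0) :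
    Dat io d M K where
  f j i := ξ.f j i + C (u ⟨j, i⟩) * ξ.f j (i₀ j)
  x := ξ.x
  cp := by
    refine ⟨fun j i => natDegree_add_le_of_degree_le (ξ.cp.1 j i)
      ((natDegree_C_mul_le _ _).trans (ξ.cp.1 j _)), fun j => ?_, fun j => ?_⟩
    · by_cases h : (ξ.f j (i₀ j)).coeff (d j) = 0
      · exact (ξ.cp.2.1 j).imp fun i hi => by simpa [h] using hi
      · exact ⟨i₀ j, by simpa [hu] using h⟩
    · rw [eq_top_iff, ← ξ.cp.2.2 j, Ideal.span_le]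
      rintro _ ⟨i, rfl⟩
      have h1 := Ideal.subset_span (s := Set.range fun i => ξ.f j i + C (u ⟨j, i⟩) * ξ.f j (i₀ j))
        ⟨i, rfl⟩
      have h2 := Ideal.subset_span (s := Set.range fun i => ξ.f j i + C (u ⟨j, i⟩) * ξ.f j (i₀ j))
        ⟨i₀ j, rfl⟩
      simp only [hu, map_zero, zero_mul, add_zero] at h2
      simpa using sub_mem h1 (Ideal.mul_mem_left _ (C (u ⟨j, i⟩)) h2)

theorem tv_tv (ξ : Dat io d M K) (i₀ : (j : J) → io j) (u : Vr io → K)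
    (hu : ∀ j, u ⟨j, i₀ j⟩ = 0) : Tv i₀ u ξ (tv ξ i₀ u hu) := ⟨hu, rfl, fun _ _ => rfl⟩

variable {i₀ : (j : J) → io j} {u : Vr io → K} {ξ ξ' : Dat io d M K}

theorem tv_pt (h : Tv i₀ u ξ ξ') (t : Option K) (j : J) (i : io j) :
    ξ'.pt t j i = ξ.pt t j i + u ⟨j, i⟩ * ξ.pt t j (i₀ j) := by
  simp only [Dat.pt]
  rw [h.2.2, Bub96.hv_add, Vb37.hv_C_mul]

theorem tv_y (h : Tv i₀ u ξ ξ') (a : M) (j : J) (i : io j) :
    ξ'.cfg.y a j i = ξ.cfg.y a j i + u ⟨j, i⟩ * ξ.cfg.y a j (i₀ j) := by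
  change ξ'.pt (ξ'.x a) j i = _
  rw [h.2.1]
  exact tv_pt h _ j i

theorem tv_symm (h : Tv i₀ u ξ ξ') : Tv i₀ (fun v => -u v) ξ' ξ :=
  ⟨fun j => neg_eq_zero.2 (h.1 j), h.2.1.symm, fun j i => by
    rw [h.2.2, h.2.2, h.1]
    simp⟩

theorem tv_map (h : Tv i₀ u ξ ξ') (α : K →ₐ[ℂ] L) :
    Tv i₀ (fun v => α (u v)) (ξ.map α) (ξ'.map α) :=
  ⟨fun j => (map_eq_zero α).2 (h.1 j), funext fun q => congrArg (Option.map α) (congrFun h.2.1 q),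
    fun j i => by
      simp only [Dat.map]
      rw [h.2.2, Polynomial.map_add, Polynomial.map_mul, map_C]
      rfl⟩

theorem tv_near (h : Tv i₀ u ξ ξ') {V : RZ ℂ K} (hu : ∀ v, V.v (u v) < 1) : Near V ξ ξ' :=
  fun t j i => by
    rw [tv_pt h, add_sub_cancel_left, map_mul]
    exact (mul_le_mul_right (le_ln _ j _ V) _).trans_lt (mul_lt_of_lt_one_left (val_pos _ _) (hu _))

end Crest.Agent.X262.Cl49
end
end

-- ▼ part X262/Cl49/Main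
section

/-!
# Row 262, road B (helper49): `Class2Stmt`
-/

set_option autoImplicit false
set_option linter.unusedSectionVars false

noncomputable section

namespace Crest.Agent.X262.Cl49

open Crest.Agent.X277 Crest.Agent.X277.BD Crest.Agent.X277.BD.Cyc Crest.Agent.X277.Pst
open Crest.Agent.X262.Hb Crest.Agent.X262.Vb Crest.Agent.X262.Vb37
open Crest.Agent.X262.Node22 (scl Par pair jn)
open Crest.Agent.X262.Wd54 (Lat rp Tv N3 gl)
open Crest.Agent.X262.Val40 (Sq dn rf)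

variable {J : Type} [Fintype J] [DecidableEq J] {io : J → Type} [∀ j, Fintype (io j)]
  [∀ j, DecidableEq (io j)]
variable {k k' F F' E' : Type} [Field k] [Algebra ℂ k] [Field k'] [Algebra ℂ k'] [Field F]
  [Algebra ℂ F] [Field F'] [Algebra ℂ F'] [Field E'] [Algebra ℂ E']
variable {I₁ I₂ I₁' I₂' M M₁ M₂ : Type} [Fintype I₁] [Fintype I₂] [Fintype I₁'] [Fintype I₂']
  [Fintype M₁] [Fintype M₂] {N : ℕ} {d d₁ d₂ : J → ℕ}

theorem exists_nrm (ξ : Dat io d M k) (N : ℕ) : ∃ (L : Type) (_ : Field L) (_ : Algebra ℂ L)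
    (θ : k →ₐ[ℂ] L) (n : ℕ) (η : Dat io d (M ⊕ Fin n) L),
    0 < deg θ ∧ η.res Sum.inl = ξ.map θ ∧ η.NrmUp N := by
  obtain ⟨L, _, _, _, _, _, n, η, h1, h2⟩ := Bub96.exists_nrm ξ N
  exact ⟨L, _, _, _, n, η, by rw [deg_tower]; exact Module.finrank_pos, h1, h2⟩

theorem piv_of_triv {γ : k →ₐ[ℂ] F} {y₀ : Pnt io k} {y : Pnt io F} (h : Par y (mapP γ y₀))
    (hy : NZ y) {V : RZ ℂ F} (hV : ∀ x, γ x ∈ V.1) {j : J} {i : io j} (hi : y j i ≠ 0) :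
    V.v (y j i) = (ln y j).val V := by
  obtain ⟨c, hc, h⟩ := h
  obtain ⟨i', hi'⟩ := exists_ln hy j V
  refine (le_ln y j i V).antisymm (hi' ▸ (RZ.le_iff hi).2 ?_)
  have e : ∀ i, y j i = c j * γ (y₀ j i) := fun i => congrFun (congrFun h j) i
  rw [e, e, mul_div_mul_left _ _ (hc j), ← map_div₀]
  exact hV _

theorem n3_map (α : k →ₐ[ℂ] F) {ξ : Dat io d M k} : N3 (ξ.map α) ↔ N3 ξ := by
  have h : ∀ (q : M) (t : k), (ξ.map α).x q = some (α t) ↔ ξ.x q = some t := fun q t =>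
    (Option.map_injective (f := α) α.injective).eq_iff (a := ξ.x q) (b := some t)
  refine exists_congr fun a => exists_congr fun b => exists_congr fun c =>
    and_congr Option.map_eq_none_iff (and_congr ?_ ?_)
  · rw [← h, map_zero]
  · rw [← h, map_one]

theorem n3_congr {ξ η : Dat io d M k} (h : ξ.x = η.x) (h' : N3 η) : N3 ξ := by
  rwa [N3, h]

section Core

variable {γ : k →ₐ[ℂ] F} {ζ₁ : Dat io d₁ M₁ k} {ζ₂ : Dat io d₂ M₂ k} {n₁ : M₁} {n₂ : M₂}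
  {ω ω' : Dat io d₂ M₂ F} {i : (j : J) → io j} {u : Vr io → F} {η₁ : Dat io d₁ I₁ F}
  {η₂ : Dat io d₂ I₂ F} {m₁ : M₁ → I₁} {m₂ : M₂ → I₂}

theorem par_ext (hP : Par (ζ₁.cfg.y n₁) (ζ₂.cfg.y n₂)) (c₁ : (ζ₁.map γ).Eqv (η₁.res m₁))
    (c₂ : (ζ₂.map γ).Eqv (η₂.res m₂)) : Par (η₁.cfg.y (m₁ n₁)) (η₂.cfg.y (m₂ n₂)) := by
  refine (par_eqv c₁ n₁).trans (Par.trans ?_ (par_eqv c₂ n₂).symm)
  rw [cfg_map_y, cfg_map_y]
  exact (par_map γ).2 hP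

variable (hP : Par (ζ₁.cfg.y n₁) (ζ₂.cfg.y n₂)) (hω : (ζ₂.map γ).Eqv ω) (hT : Tv i u ω' ω)
  (c₁ : (ζ₁.map γ).Eqv (η₁.res m₁)) (c₂ : ω'.Eqv (η₂.res m₂)) (e₁ : η₁.NrmUp N) (e₂ : η₂.NrmUp N)
include hP hω hT c₁ c₂ e₁ e₂

theorem core {θ : k →ₐ[ℂ] k'} {a : F →ₐ[ℂ] F'} {b : k' →ₐ[ℂ] F'} (hab : a.comp γ = b.comp θ)
    {W : RZ ℂ F'} {p : Pl ℂ k' ℂ E'} {ρ : E' →ₐ[ℂ] Rf W} (S : Sq b p (plV W) ρ)
    (hu : ∀ v, (dn a W).v (u v) < 1) {ξ₁ : Dat io d₁ I₁' k'} {ξ₂ : Dat io d₂ I₂' k'}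
    {m₁' : M₁ → I₁'} {m₂' : M₂ → I₂'} (c₁' : (ζ₁.map θ).Eqv (ξ₁.res m₁'))
    (c₂' : (ζ₂.map θ).Eqv (ξ₂.res m₂')) (e₁' : ξ₁.NrmUp N) (e₂' : ξ₂.NrmUp N)
    (h : Par (rp (plV (dn a W)) (η₁.cfg.y (m₁ n₁))) (rp (plV (dn a W)) (η₂.cfg.y (m₂ n₂)))) :
    Lat N ((jn ((pair η₁.cfg η₂.cfg).red (plV (dn a W))) (.inl (m₁ n₁)) (.inr (m₂ n₂))).map
      (rf a W)) (Sum.map m₁ m₂)
      ((jn ((pair ξ₁.cfg ξ₂.cfg).red p) (.inl (m₁' n₁)) (.inr (m₂' n₂))).map ρ)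
      (Sum.map m₁' m₂') := by
  have f₁ : ((ζ₁.map γ).map a).Eqv ((ξ₁.map b).res m₁') := by
    rw [dmap_map, hab, ← dmap_map]
    exact eqv_map c₁' b
  have f₂ : ((ζ₂.map γ).map a).Eqv ((ξ₂.map b).res m₂') := by
    rw [dmap_map, hab, ← dmap_map]
    exact eqv_map c₂' b
  exact lat_congr (lat_near (η₁ := η₁.map a) (η₂ := η₂.map a) (near_refl W _) rfl
    (tv_near (tv_map hT a) fun v => Val40.v_dn_lt_one.1 (hu v)) (tv_map hT a).2.1 (eqv_map c₁ a)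
    (eqv_map c₂ a) f₁ (eqv_trans (eqv_symm (eqv_map hω a)) f₂) (nrmUp_map e₁ a) (nrmUp_map e₂ a)
    (nrmUp_map e₁' b) (nrmUp_map e₂' b) n₁ n₂) (geqN_of_geq (geq_sq (sq_rf a W) η₁ η₂ h))
    (geqN_of_geq (geq_sq S ξ₁ ξ₂ (par_rp (par_ext hP c₁' c₂') (nz_cfg _ _) p)))

variable [Algebra.EssFiniteType ℂ k] [Algebra.EssFiniteType ℂ F]

theorem caseA {V : RZ ℂ F} (hV : Dvs V) (hu : ∀ v, V.v (u v) < 1)
    (h : Par (rp (plV V) (η₁.cfg.y (m₁ n₁))) (rp (plV V) (η₂.cfg.y (m₂ n₂))))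
    (h0 : ¬∀ x, γ x ∈ V.1) :
    ∃ (E : Type) (_ : Field E) (_ : Algebra ℂ E) (_ : Algebra.EssFiniteType ℂ E)
      (ι : Rf V →ₐ[ℂ] E), 0 < deg ι ∧ ∃ (E' I' : Type) (_ : Field E') (_ : Algebra ℂ E')
      (_ : Fintype I') (β : E' →ₐ[ℂ] E) (z' : Cfg io I' E') (m' : M₁ ⊕ M₂ → I'),
      dim ℂ E' < dim ℂ k ∧
      Lat N ((jn ((pair η₁.cfg η₂.cfg).red (plV V)) (.inl (m₁ n₁)) (.inr (m₂ n₂))).map ι)
        (Sum.map m₁ m₂) (z'.map β) m' := by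
  obtain ⟨L₁, _, _, θ₁, r₁, ξ₁, a1, a2, a3⟩ := exists_nrm ζ₁ N
  obtain ⟨L, _, _, θ₂, r₂, ξ₂, b1, b2, b3⟩ := exists_nrm (ζ₂.map θ₁) N
  have hθ : 0 < deg (θ₂.comp θ₁) := by
    rw [Vb10.deg_comp]
    exact mul_pos a1 b1
  obtain ⟨F', _, _, a, b, ha, hab⟩ := Vb10.exists_amal γ _ hθ
  obtain ⟨W, rfl⟩ := Val40.dn_surjective a V
  have := Vb10.eft_of_deg a ha
  have := Vb10.eft_of_deg _ hθ
  have hW : Dvs W := Val40.dvs_up ((deg_pos_iff a).1 ha) hV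
  have h1 : (dn b W).1 ≠ ⊤ := fun h1 => h0 fun x => by
    change a.comp γ x ∈ W.1
    rw [hab]
    exact (Val40.mem_dn (α := b)).1 (h1 ▸ ValuationSubring.mem_top _)
  have h2 := Geo.dim_Rf' (Val40.dvs_dn hW h1)
  rw [(deg_pos_iff _).1 hθ] at h2
  refine ⟨Rf W, _, _, Geo.essFT_Rf hW, rf a W, (Val40.deg_rf_pos_iff hW hV.ne_top).2 ha,
    Rf (dn b W), _, _, _, inferInstance, rf b W, _, _, by omega,
    core hP hω hT c₁ c₂ e₁ e₂ hab (sq_rf b W) hu (ξ₁ := ξ₁.map θ₂) (m₁' := Sum.inl)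
      (m₂' := Sum.inl) ?_ ?_ (nrmUp_map a3 θ₂) b3 h⟩
  · rw [← dmap_res, a2, dmap_map]
    exact eqv_refl _
  · rw [b2, dmap_map]
    exact eqv_refl _

theorem caseB {V : RZ ℂ F} (hV : Dvs V) (hu : ∀ v, V.v (u v) < 1)
    (h : Par (rp (plV V) (η₁.cfg.y (m₁ n₁))) (rp (plV V) (η₂.cfg.y (m₂ n₂))))
    (h0 : ∀ x, γ x ∈ V.1) {θ : k →ₐ[ℂ] k'} (hθ : 0 < deg θ) {ξ₁ : Dat io d₁ I₁' k'}
    {ξ₂ : Dat io d₂ I₂' k'} {m₁' : M₁ → I₁'} {m₂' : M₂ → I₂'} (c₁' : (ζ₁.map θ).Eqv (ξ₁.res m₁'))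
    (c₂' : (ζ₂.map θ).Eqv (ξ₂.res m₂')) (e₁' : ξ₁.NrmUp N) (e₂' : ξ₂.NrmUp N) :
    ∃ (E : Type) (_ : Field E) (_ : Algebra ℂ E) (_ : Algebra.EssFiniteType ℂ E)
      (ι : Rf V →ₐ[ℂ] E), 0 < deg ι ∧ ∃ β : k' →ₐ[ℂ] E, (∀ x, β (θ x) = ι ((plV V).r (γ x))) ∧
      Lat N ((jn ((pair η₁.cfg η₂.cfg).red (plV V)) (.inl (m₁ n₁)) (.inr (m₂ n₂))).map ι)
        (Sum.map m₁ m₂) ((gl ξ₁ ξ₂ (m₁' n₁) (m₂' n₂)).map β) (Sum.map m₁' m₂') := by
  obtain ⟨F', _, _, a, b, ha, hab⟩ := Vb10.exists_amal γ θ hθ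
  obtain ⟨W, rfl⟩ := Val40.dn_surjective a V
  have := Vb10.eft_of_deg a ha
  have := Vb10.eft_of_deg _ hθ
  have hW : Dvs W := Val40.dvs_up ((deg_pos_iff a).1 ha) hV
  have e : ∀ x, b (θ x) = a (γ x) := fun x => (AlgHom.congr_fun hab x).symm
  have h1 : (dn b W).1 = ⊤ := by
    by_contra h1
    refine Val40.dn_ne_top' (α := θ) ((deg_pos_iff θ).1 hθ) (Val40.dvs_dn hW h1)
      (eq_top_iff.2 fun x _ => ?_)
    change b (θ x) ∈ W.1
    rw [e]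
    exact h0 x
  have h2 : ∀ x, b x ∈ W.1 := fun x => Val40.mem_dn.1 (h1 ▸ ValuationSubring.mem_top x)
  let β : k' →ₐ[ℂ] Rf W :=
    { toFun := fun x => (plV W).r (b x)
      map_one' := by rw [map_one]; exact Pl.r_one _
      map_mul' := fun x y => by rw [map_mul]; exact Pl.r_mul (h2 x) (h2 y)
      map_zero' := by rw [map_zero]; exact Pl.r_zero _
      map_add' := fun x y => by rw [map_add]; exact Pl.r_add (h2 x) (h2 y)
      commutes' := fun c => by rw [b.commutes]; exact lnr_plV W c }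
  have S : Sq b (LP.hom (AlgHom.id ℂ k')).toPl (plV W) β :=
    ⟨fun x => iff_of_true (h2 x) (mem_hom _ x), fun x => by rw [r_hom]; rfl⟩
  refine ⟨Rf W, _, _, Geo.essFT_Rf hW, rf a W, (Val40.deg_rf_pos_iff hW hV.ne_top).2 ha, β,
    fun x => by rw [Val40.rf_r, ← e]; rfl, lat_congr
      (core hP hω hT c₁ c₂ e₁ e₂ hab S hu c₁' c₂' e₁' e₂' h) EqN.rfl.geqN
      (geqN_of_geq (Cfg.Geq.map (geq_jn ?_ _ _) β))⟩
  have := Cfg.red_hom (AlgHom.id ℂ k') (nz_pair (nz_cfg ξ₁) (nz_cfg ξ₂))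
  rwa [Cfg.map_id] at this

end Core

/-- **CLASS2** -/
theorem class2Stmt : Wd54.Class2Stmt := by
  intro J _ _ io _ _ d₁ d₂ M₁ M₂ k F E₀ I₁ I₂ I₁' I₂' _ _ _ _ _ _ _ _ _ _ _ _ _ _ N ζ₁ ζ₂ n₁ n₂ G γ
    i₀ u ζ₂' hi hT η₁ η₂ m₁ m₂ c₁ c₂ e₁ e₂ θ₀ ξ₁ ξ₂ m₁' m₂' hθ c₁' c₂' e₁' e₂' V hV h
  obtain ⟨C₁, -, C₃⟩ := Cnt37.countStmt (io := io)
  have := (C₃ ζ₁ ζ₂ n₁ n₂ G.n1 G.n2 G.par G.gen).1
  set y := (ζ₂.map γ).cfg.y n₂ with hy
  set y' := ζ₂'.cfg.y n₂ with hy'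
  have hn : NZ y := nz_cfg _ _
  have hn' : NZ y' := nz_cfg _ _
  have p₁ : Par ((ζ₁.map γ).cfg.y n₁) y := by
    rw [hy, cfg_map_y, cfg_map_y]
    exact (par_map γ).2 G.par
  have p₂ : Par (rp (plV V) y) (rp (plV V) y') :=
    ((par_rp ((par_eqv c₁ n₁).trans p₁) hn _).symm.trans h).trans (par_rp (par_eqv c₂ n₂) hn' _)
  have hi' : ∀ j, y j (i₀ j) ≠ 0 := fun j => by
    rw [hy, cfg_map_y]
    exact (map_ne_zero γ).2 (hi j)
  by_cases hp : ∀ j, V.v (y j (i₀ j)) = (ln y j).val V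
  · have hu : ∀ v : Vr io, V.v (-u v) < 1 := fun v => by
      have h1 := (near_of_par p₂ hn hn' (hp v.1)).2.2 v.2
      rw [hy', tv_y hT, tv_y hT, hT.1, zero_mul, add_zero, ← hy, add_div,
        mul_div_cancel_right₀ _ (hi' _), add_sub_cancel_left] at h1
      rwa [Valuation.map_neg]
    by_cases h0 : ∀ x, γ x ∈ V.1
    · obtain ⟨E, _, _, _, ι, h1, h2⟩ := caseB G.par (eqv_refl _) (tv_symm hT) c₁ c₂ e₁ e₂ hV hu h
        h0 hθ c₁' c₂' e₁' e₂'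
      exact ⟨E, _, _, inferInstance, ι, h1, Or.inr ⟨h0, h2⟩⟩
    · obtain ⟨E, _, _, _, ι, h1, h2⟩ :=
        caseA G.par (eqv_refl _) (tv_symm hT) c₁ c₂ e₁ e₂ hV hu h h0
      exact ⟨E, _, _, inferInstance, ι, h1, Or.inl ⟨h0, h2⟩⟩
  choose i₁ hi₁ using fun j => exists_ln hn j V
  have hN := fun j => near_of_par p₂ hn hn' (hi₁ j)
  let u' : Vr io → F := fun v => -(y' v.1 v.2 / y' v.1 (i₁ v.1) - y v.1 v.2 / y v.1 (i₁ v.1))
  have hu₀ : ∀ j, u' ⟨j, i₁ j⟩ = 0 := fun j => by simp [u', (hN j).1, (hN j).2.1]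
  have hT' := tv_tv ζ₂' i₁ u' hu₀
  set ω := tv ζ₂' i₁ u' hu₀
  have p₃ : Par (ω.cfg.y n₂) y := ⟨fun j => y' j (i₁ j) / y j (i₁ j),
    fun j => div_ne_zero (hN j).2.1 (hN j).1, funext fun j => funext fun i => by
      have := (hN j).1
      have := (hN j).2.1
      rw [tv_y hT', ← hy']
      simp only [u', scl]
      field_simp
      ring⟩
  let K := IntermediateField.adjoin ℂ ((ζ₁.map γ).crd ∪ ω.crd)
  obtain ⟨τ₁, a1, a2, a3⟩ := C₁ (ζ₁.map γ) K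
    (Set.subset_union_left.trans (IntermediateField.subset_adjoin _ _))
  obtain ⟨τ₂, b1, b2, b3⟩ := C₁ ω K
    (Set.subset_union_right.trans (IntermediateField.subset_adjoin _ _))
  have q₁ : Par y (mapP K.val (τ₁.cfg.y n₁)) :=
    cfg_map_y K.val τ₁ n₁ ▸ p₁.symm.trans (par_eqv (m := id) a1 n₁)
  have q₂ : Par y (mapP K.val (τ₂.cfg.y n₂)) :=
    cfg_map_y K.val τ₂ n₂ ▸ p₃.symm.trans (par_eqv (m := id) b1 n₂)
  have q₃ : Par (τ₁.cfg.y n₁) (τ₂.cfg.y n₂) := (par_map K.val).1 (q₁.symm.trans q₂)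
  obtain ⟨_, hd⟩ := C₃ τ₁ τ₂ n₁ n₂ ((n3_map K.val).1 (n3_congr a2 ((n3_map γ).2 G.n1)))
    ((n3_map K.val).1 (n3_congr (b2.trans (hT'.2.1.trans hT.2.1)) ((n3_map γ).2 G.n2))) q₃ (by
      refine IntermediateField.map_injective K.val ?_
      rw [IntermediateField.adjoin_map, Set.image_union, ← crd_map, ← crd_map, a3, b3,
        ← AlgHom.fieldRange_eq_map, IntermediateField.fieldRange_val])
  obtain ⟨E, _, _, _, ι, h1, E', I', _, _, _, β, z', m', h2, h3⟩ :=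
    caseA q₃ b1 hT' (eqv_trans a1 c₁) c₂ e₁ e₂ hV
      (fun v => by rw [Valuation.map_neg]; exact (hN v.1).2.2 v.2) h
      fun h0 => hp fun j => piv_of_triv q₁ hn h0 (hi' j)
  have := G.dm
  have q₄ : Par y (mapP γ (ζ₂.cfg.y n₂)) := by
    rw [hy, cfg_map_y]
    exact Par.refl _
  exact ⟨E, _, _, inferInstance, ι, h1, Or.inl ⟨fun h0 => hp fun j => piv_of_triv q₄ hn h0 (hi' j),
    E', I', _, _, inferInstance, β, z', m', by omega, h3⟩⟩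

end Crest.Agent.X262.Cl49
end
end

-- ▼ part X262/Ord20/Main
section

/-!
# Row 262, road B (helper20): the excess number of a point of the ambient space is one

* `up_sz`   : the ideal of a rational point in affine coordinates;
* `num_dh`  : `D · (-D)^r = 1` on the generic fibre;
* `itg_om`  : the contribution of one component;
* `ordStmt` : `Wd54.OrdStmt`.
-/

set_option autoImplicit false
set_option linter.unusedSectionVars false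

noncomputable section

namespace Crest.Agent.X262.Ord20

open Crest.Agent.X277 Crest.Agent.X277.BD Crest.Agent.X277.Pst Crest.Agent.X277.BD.Cyc
open Crest.Agent.X262.Geo Crest.Agent.X262.Tr89 Crest.Agent.X262.Hb Crest.Agent.X262.Vb
open Crest.Agent.X262.Node22 Crest.Agent.X262.Wd54
open Crest.Agent.X262.Loc (dim_tower)
open List (replicate)
open IntermediateField (adjoin)
open Set (range)

variable {J : Type} [Fintype J] [DecidableEq J] {io : J → Type} [∀ j, Fintype (io j)]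
  [∀ j, DecidableEq (io j)] {k K : Type} [Field k] [Algebra ℂ k] [Field K] [Algebra ℂ K]
  [Algebra k K] [IsScalarTower ℂ k K] {y : Pnt io k} {y' : Pnt io K}

variable (K) in
/-- the image of a rational point -/
def im (y : Pnt io k) : Pnt io K := fun j i => algebraMap k K (y j i)

theorem nz_im (h : NZ y) : NZ (im K y) := fun j =>
  (h j).imp fun _ hi => (map_ne_zero (algebraMap k K)).2 hi

theorem prim_im (h : NZ y) (W : RZ k K) : Prim (W.dn ℂ) (im K y) := fun j =>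
  ⟨fun _ => W.2 _, (h j).imp fun _ hi => W.v_alg hi⟩

theorem card_piv (i₀ : (j : J) → io j) : Fintype.card (Σ j, {i // i ≠ i₀ j}) = dimP io := by
  simp [dimP, Fintype.card_sigma]

theorem eq_top (hg : adjoin ℂ (range (algebraMap k K) ∪ rat y') = ⊤) {i₀ : (j : J) → io j}
    (h0 : ∀ j, y' j (i₀ j) ≠ 0) {F : IntermediateField k K}
    (h : ∀ j i, i ≠ i₀ j → y' j i / y' j (i₀ j) ∈ F) : F = ⊤ := by
  have h1 : ∀ j i, y' j i / y' j (i₀ j) ∈ F := fun j i => by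
    by_cases hi : i = i₀ j
    · rw [hi, div_self (h0 j)]; exact one_mem _
    · exact h j i hi
  have h2 : adjoin ℂ (range (algebraMap k K) ∪ rat y') ≤ F.restrictScalars ℂ := by
    refine IntermediateField.adjoin_le_iff.2 ?_
    rintro _ (⟨c, rfl⟩ | ⟨j, i, i', rfl⟩)
    · exact F.algebraMap_mem c
    · rw [← div_div_div_cancel_right₀ (h0 j)]
      exact F.div_mem (h1 j i) (h1 j i')
  exact top_unique fun x _ => h2 (hg ▸ IntermediateField.mem_top)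

/-- affine coordinates centred at `y` -/
def aff (y : Pnt io k) (y' : Pnt io K) (i₀ : (j : J) → io j) (j : J) (i : io j) : K :=
  y' j i / y' j (i₀ j) - algebraMap k K (y j i / y j (i₀ j))

theorem up_sz {i₀ : (j : J) → io j} (h : ∀ j, y j (i₀ j) ≠ 0) (h' : ∀ j, y' j (i₀ j) ≠ 0)
    (hu : ∃ v : Σ j, {i // i ≠ i₀ j}, aff y y' i₀ v.1 v.2 ≠ 0) :
    up k (sz (wdg (im K y) y') fun v => ln (im K y) v.1 + ln y' v.1) =
      mxf k (fun v : Σ j, {i // i ≠ i₀ j} => aff y y' i₀ v.1 v.2) ⊓ 0 := by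
  have hy : NZ y := fun j => ⟨_, h j⟩
  have hy' : NZ y' := fun j => ⟨_, h' j⟩
  have h0 : ∀ j, im K y j (i₀ j) ≠ 0 := fun j => (map_ne_zero (algebraMap k K)).2 (h j)
  have e0 : ∀ j i, y' j i = y' j (i₀ j) * (aff y y' i₀ j i + algebraMap k K (y j i / y j (i₀ j))) :=
    fun j i => by rw [aff, sub_add_cancel, mul_div_cancel₀ _ (h' j)]
  have e1 : ∀ x : Dg io, wdg (im K y) y' x = y' x.1 (i₀ x.1) *
      (im K y x.1 x.2.1 * aff y y' i₀ x.1 x.2.2 - im K y x.1 x.2.2 * aff y y' i₀ x.1 x.2.1) :=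
    fun x => by
      have := h0 x.1
      have := h' x.1
      simp only [wdg, aff, map_div₀, im] at *
      field_simp
      ring
  have e2 : ∀ j, aff y y' i₀ j (i₀ j) = 0 := fun j => by simp [aff, h j, h' j]
  have e3 : ∀ j i, wdg (im K y) y' ⟨j, i₀ j, i⟩ =
      y' j (i₀ j) * (im K y j (i₀ j) * aff y y' i₀ j i) := fun j i => by
    rw [e1, e2, mul_zero, sub_zero]
  have hw : wdg (im K y) y' ≠ 0 := fun h1 => by
    obtain ⟨v, hv⟩ := hu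
    exact mul_ne_zero (h' _) (mul_ne_zero (h0 _) hv) ((e3 v.1 v.2).symm.trans (congrFun h1 _))
  refine ext' fun W => ?_
  obtain ⟨v, hv⟩ := exists_val_mxf (k := k) hu W
  have h1 : ∀ j i, (W.dn ℂ).v (aff y y' i₀ j i) ≤ (W.dn ℂ).v (aff y y' i₀ v.1 v.2) := fun j i => by
    by_cases hi : i = i₀ j
    · rw [hi, e2, map_zero]; exact zero_le
    · exact (mem_Sec_mxf (k := k) (fun v : Σ j, {i // i ≠ i₀ j} => aff y y' i₀ v.1 v.2)
        ⟨j, i, hi⟩ W).trans hv.ge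
  have h2 : ∀ c : k, (W.dn ℂ).v (algebraMap k K c) ≤ 1 := W.v_alg_le
  have h3 : (W.dn ℂ).v (im K y v.1 (i₀ v.1)) = 1 := W.v_alg (h _)
  have h4 := (prim_im hy W).val_ln
  rw [val_up, val_sz hw, val_inf, val_zero, ← hv]
  change _ = min ((W.dn ℂ).v (aff y y' i₀ v.1 v.2)) 1
  generalize W.dn ℂ = V at h1 h2 h3 h4
  refine le_antisymm (le_min (nm_le.2 fun x => ?_) (nm_le.2 fun x => ?_)) ?_
  · rw [e1, map_mul, val_add, h4, one_mul, mul_comm]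
    refine mul_le_mul' (V.v.map_sub_le ?_ ?_) (le_ln _ _ _ _) <;> rw [map_mul] <;>
      exact (mul_le_of_le_one_left' (h2 _)).trans (h1 _ _)
  · rw [one_mul, val_add]
    refine V.v.map_sub_le ?_ ?_ <;> rw [map_mul] <;> exact mul_le_mul' (le_ln _ _ _ _) (le_ln _ _ _ _)
  · have h5 := le_nm (fun v : Dg io => ln (im K y) v.1 + ln y' v.1) V (wdg (im K y) y')
      ⟨v.1, i₀ v.1, v.2⟩
    obtain ⟨i, hi⟩ := exists_ln hy' v.1 V
    have h6 : (ln y' v.1).val V ≤ V.v (y' v.1 (i₀ v.1)) * max (V.v (aff y y' i₀ v.1 v.2)) 1 := by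
      rw [← hi, e0 v.1 i, map_mul]
      exact mul_le_mul_right ((V.v.map_add _ _).trans (max_le_max (h1 _ _) (h2 _))) _
    rw [e3, map_mul, map_mul, h3, val_add, h4, one_mul, one_mul] at h5
    have h7 := h5.trans (mul_le_mul_right h6 _)
    rw [mul_left_comm, mul_le_mul_iff_right₀ (RZ.pos (h' _))] at h7
    rcases le_total (V.v (aff y y' i₀ v.1 v.2)) 1 with h8 | h8
    · rwa [min_eq_left h8, ← mul_one (nm _ _ _), ← max_eq_right h8]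
    · rw [max_eq_left h8] at h7
      rw [min_eq_right h8]
      exact (le_mul_iff_one_le_left (zero_lt_one.trans_le h8)).1 h7

variable [CharZero k] [Algebra.EssFiniteType k K]

theorem num_dh (hy : NZ y) (hy' : NZ y') {r : ℕ} (hr : dimP io = r + 1) (hd : dim k K = r + 1)
    (hg : adjoin ℂ (range (algebraMap k K) ∪ rat y') = ⊤) : wdg (im K y) y' ≠ 0 ∧
    bnum (up k (dh (im K y) y') :: replicate r (up k (-dh (im K y) y'))) = 1 := by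
  choose i₀ h using id hy
  choose i₁ h1 using id hy'
  have h' : ∀ j, y' j (i₀ j) ≠ 0 := fun j => by
    by_cases hi : i₀ j = i₁ j
    · exact hi ▸ h1 j
    have h2 := algInd_of_dim (k := k)
      (s := fun v : Σ j, {i // i ≠ i₁ j} => y' v.1 v.2 / y' v.1 (i₁ v.1))
      (eq_top hg h1 fun j i hi => IntermediateField.subset_adjoin _ _ ⟨⟨j, i, hi⟩, rfl⟩)
      (by rw [card_piv, hr, hd])
    exact (div_ne_zero_iff.1 (h2.ne_zero ⟨j, i₀ j, hi⟩)).1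
  have hu : adjoin k (range fun v : Σ j, {i // i ≠ i₀ j} => aff y y' i₀ v.1 v.2) = ⊤ :=
    eq_top hg h' fun j i hi => by
      rw [← sub_add_cancel (y' j i / y' j (i₀ j)) (algebraMap k K (y j i / y j (i₀ j)))]
      exact add_mem (IntermediateField.subset_adjoin _ _ ⟨⟨j, i, hi⟩, rfl⟩)
        (IntermediateField.algebraMap_mem _ _)
  have hc := (card_piv i₀).trans hr
  obtain ⟨v⟩ := Fintype.card_pos_iff.1 (r.succ_pos.trans_eq hc.symm)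
  have hv := (algInd_of_dim hu (by rw [hc, hd])).ne_zero v
  refine ⟨fun h0 => hv ?_, ?_⟩
  · have h2 := congrFun h0 ⟨v.1, i₀ v.1, v.2⟩
    have h3 := (map_ne_zero (algebraMap k K)).2 (h v.1)
    have h4 := h' v.1
    simp only [wdg, aff, map_div₀, im, Pi.zero_apply] at *
    field_simp
    linear_combination h2
  · rw [dh, neg_neg, map_neg, up_sz h h' ⟨v, hv⟩]
    exact num hu hc hd

variable {B : Th} [Algebra.EssFiniteType ℂ k] [Algebra.EssFiniteType ℂ K]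

theorem TP_eq (hy : NZ y) {c c' : J → K} (hc : ∀ j, c j ≠ 0) (hc' : ∀ j, c' j ≠ 0) :
    (∀ x, up k (da (scl c (im K y)) (scl c' (im K y)) x) = pr k (c x.1 * c' x.1)) ∧
    TP (scl c (im K y)) (scl c' (im K y)) = ex (fun x => c x.1 * c' x.1) (TP y y) := by
  have h1 : ∀ j, up k (ln (im K y) j) = 0 := fun j =>
    ext' fun W => (val_up (k := ℂ) _ W).trans ((prim_im hy W).val_ln j)
  have ha : ∀ x, up k (da (scl c (im K y)) (scl c' (im K y)) x) = pr k (c x.1 * c' x.1) :=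
    fun x => by
      rw [da, ln_scl (nz_im hy) hc, ln_scl (nz_im hy) hc', map_add, map_add, map_add, h1, up_pr,
        up_pr, zero_add, zero_add, pr_mul (hc _) (hc' _)]
  have hP : Par (scl c (im K y)) (scl c' (im K y)) :=
    Par.trans ⟨c, hc, rfl⟩ (Par.symm ⟨c', hc', rfl⟩)
  refine ⟨ha, (Submodule.eq_of_le_of_finrank_eq (Submodule.span_le.2 ?_) ?_).symm⟩
  · rintro _ ⟨w, hw, rfl⟩
    obtain ⟨τ, rfl⟩ := (mem_TP (Par.refl y)).1 hw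
    refine (mem_TP hP).2 ⟨vsc c fun v => algebraMap k K (τ v), funext fun x => ?_⟩
    simp only [wg_apply, vsc_apply, vec, scl, im, exv, map_sub, map_mul]
    ring
  · exact (finrank_ex (fun x => mul_ne_zero (hc _) (hc' _)) ha _).trans
      ((finrank_TP (Par.refl y) hy).trans (finrank_TP hP (nz_scl (nz_im hy) hc')).symm)

theorem itg_om (hB : B.Ax) (hy : NZ y) (hy' : NZ y') {r : ℕ} (hr : dimP io = r + 1)
    (hd : dim ℂ K = dim ℂ k + (r + 1)) (hw : wdg (im K y) y' ≠ 0) (φ : B.H k) {W : RZ k K}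
    (hW : Dvs W) (h0 : (dh (im K y) y').val (W.dn ℂ) ≠ 1) :
    B.itg (Rf (W.dn ℂ)) (om B (im K y) y' (W.dn ℂ) *
      B.pb ((LP.hom (IsScalarTower.toAlgHom ℂ k K)).comp (LP.at (W.dn ℂ))) φ) =
      dg W (replicate r (up k (-dh (im K y) y'))) * B.itg k φ := by
  have hV : Dvs (W.dn ℂ) := Pst.dvs_dn.2 hW
  have := essFT_Rf hV
  have h4 := dim_Rf' hV
  let β := rh (IsScalarTower.toAlgHom ℂ k K) (W.dn ℂ) W.2
  let _ : Algebra k (Rf (W.dn ℂ)) := β.toRingHom.toAlgebra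
  have : IsScalarTower ℂ k (Rf (W.dn ℂ)) :=
    IsScalarTower.of_algebraMap_eq fun c => (β.commutes c).symm
  have : Algebra.EssFiniteType k (Rf (W.dn ℂ)) := Algebra.EssFiniteType.of_comp ℂ k _
  have h5 : ∀ c : k, algebraMap k K c ∈ (plV (W.dn ℂ)).V.1 ∧
      ∃ c' : k, (plV (W.dn ℂ)).r (algebraMap k K c) = algebraMap k _ c' :=
    fun c => ⟨W.2 c, c, rfl⟩
  have hp : ∀ {z : Pnt io K}, NZ z → Prim (W.dn ℂ) (scl (fun j => ((ln z j).gen (W.dn ℂ))⁻¹) z) :=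
    fun hz => prim_scl hz fun j => by rw [map_inv₀, v_gen]
  have h1 : Par (rp (plV (W.dn ℂ)) (im K y)) (im (Rf (W.dn ℂ)) y) :=
    Par.red (p := plV (W.dn ℂ)) ⟨_, fun j => inv_ne_zero (gen_ne _ _), rfl⟩ (hp (nz_im hy))
      (prim_im hy W)
  have h2 : Par (rp (plV (W.dn ℂ)) (im K y)) (rp (plV (W.dn ℂ)) y') := by
    refine par_red_of_dl (p := plV (W.dn ℂ)) (hp (nz_im hy)) (hp hy') fun x => ?_
    rw [dh, val_neg, val_sz hw, Ne, inv_eq_one] at h0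
    have h6 : nm (fun v : Dg io => ln (im K y) v.1 + ln y' v.1) (W.dn ℂ) (wdg (im K y) y') ≤ 1 :=
      nm_le.2 fun x => by
        rw [one_mul, val_add]
        refine Valuation.map_sub_le _ ?_ ?_ <;> rw [map_mul] <;>
          exact mul_le_mul' (le_ln _ _ _ _) (le_ln _ _ _ _)
    refine lt_of_le_of_lt (le_of_eq ?_) ((div_le_nm _ _ _ x).trans_lt (h6.lt_of_ne h0))
    rw [val_add, ← v_gen, ← v_gen, ← map_mul, ← map_div₀]
    congr 1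
    simp only [dl, wg_apply, vec, scl, wdg]
    have := gen_ne (ln (im K y) x.1) (W.dn ℂ)
    have := gen_ne (ln y' x.1) (W.dn ℂ)
    field_simp
  obtain ⟨c', hc', e'⟩ := h2.symm.trans h1
  obtain ⟨c, hc, e⟩ := h1
  obtain ⟨h6, h7⟩ := TP_eq hy hc hc'
  rw [om, e, e', h7, hB.pb_comp, pb_at_rh hB (IsScalarTower.toAlgHom ℂ k K) (W.dn ℂ) W.2,
    hB.pb_c1]
  refine (itg_cq hB (fun x => mul_ne_zero (hc _) (hc' _)) h6
    ((finrank_TP (Par.refl y) hy).trans hr) (by omega) _ φ).trans ?_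
  rw [show dg W _ = _ from dg_eq_pl (p := Fam.gd (plV (W.dn ℂ)) k k h5) hW
    (fun c => rfl) (surj_plV (W.dn ℂ)) _, List.map_replicate]
  congr 2
  exact bnum_rep ((Fam.gd_rs h5 _).trans ((Fam.lin_rs_neg _ _).up k)).symm r

open Classical in
theorem ord (hB : B.Ax) (hy : NZ y) (hy' : NZ y') (hp : 0 < dimP io)
    (hd : dim ℂ K = dim ℂ k + dimP io) (hg : adjoin ℂ (range (algebraMap k K) ∪ rat y') = ⊤)
    (φ : B.H k) : ∑ᶠ (V : RZ ℂ K) (_ : Dvs V), od V (dh (im K y) y') *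
      (if ∀ x, algebraMap k K x ∈ V.1 then B.itg (Rf V) (om B (im K y) y' V *
        B.pb ((LP.hom (IsScalarTower.toAlgHom ℂ k K)).comp (LP.at V)) φ) else 0) = B.itg k φ := by
  obtain ⟨r, hr⟩ := Nat.exists_eq_succ_of_ne_zero hp.ne'
  rw [hr] at hd
  obtain ⟨hw, hn⟩ := num_dh hy hy' hr (by have := dim_tower ℂ k K; omega) hg
  obtain ⟨T, h1, h2, h3⟩ := exists_cyc' (up k (dh (im K y) y'))
    (replicate r (up k (-dh (im K y) y')))
  have hinj : Function.Injective (fun W : RZ k K => W.dn ℂ) := fun W W' h =>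
    Subtype.ext (congrArg (fun V : RZ ℂ K => V.1) h)
  rw [← one_mul (B.itg k φ), ← Int.cast_one, ← hn, h3, Int.cast_sum, Finset.sum_mul,
    finsum_eq_sum_of_support_subset (s := T.image fun W => W.dn ℂ),
    Finset.sum_image fun _ _ _ _ h => hinj h]
  · refine Finset.sum_congr rfl fun W hW => ?_
    have hV : Dvs (W.dn ℂ) := Pst.dvs_dn.2 (h1 W hW)
    rw [finsum_eq_if, if_pos hV, if_pos (show ∀ x, algebraMap k K x ∈ (W.dn ℂ).1 from W.2),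
      od_up hV, Int.cast_mul, mul_assoc]
    by_cases h0 : od (W.dn ℂ) (dh (im K y) y') = 0
    · rw [h0, Int.cast_zero, zero_mul, zero_mul]
    · rw [itg_om hB hy hy' hr hd hw φ (h1 W hW) ((od_eq_zero hV).not.1 h0)]
  · intro V hV
    rw [Function.mem_support, finsum_eq_if] at hV
    have hD : Dvs V := by_contra fun h0 => hV (if_neg h0)
    rw [if_pos hD] at hV
    have h4 := right_ne_zero_of_mul hV
    have h5 : ∀ x, algebraMap k K x ∈ V.1 := by_contra fun h0 => h4 (if_neg h0)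
    rw [if_pos h5] at h4
    let W : RZ k K := ⟨V.1, h5⟩
    have hW : Dvs W := (Pst.dvs_dn (E := ℂ)).1 hD
    have h6 : od V (dh (im K y) y') ≠ 0 := Int.cast_ne_zero.1 (left_ne_zero_of_mul hV)
    refine Finset.mem_coe.2 (Finset.mem_image.2 ⟨W, h2 W hW ?_ ?_, rfl⟩)
    · rwa [od_up (W := W) hD]
    · rw [show V = W.dn ℂ from rfl,
        itg_om hB hy hy' hr hd hw φ hW ((od_eq_zero hD).not.1 h6)] at h4
      exact Int.cast_ne_zero.1 (left_ne_zero_of_mul h4)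

/-- **ORD** -/
theorem ordStmt : OrdStmt := by
  intro B hB J _ _ io _ _ k K _ _ _ _ _ _ γ y y' hy hy' hp hd hg φ
  let _ : Algebra k K := γ.toRingHom.toAlgebra
  have : IsScalarTower ℂ k K := IsScalarTower.of_algebraMap_eq fun c => (γ.commutes c).symm
  have : Algebra.EssFiniteType k K := Algebra.EssFiniteType.of_comp ℂ k _
  have : CharZero k := charZero_of_injective_algebraMap (algebraMap ℂ k).injective
  exact ord hB hy hy' hp hd hg φ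

end Crest.Agent.X262.Ord20
end
end

-- ▼ part X262/Prod33/Main

/-!
# Row 262, road B (helper33), part 2: the virtual number of a pair of configurations

* `dv_pair`, `cpz_pair` : the divisor and the Chern polynomial of a disjoint union;
* `vir_ker`  : the virtual number of a pair over a product field, for any insertion;
* `vir_diag` : the insertion of the diagonal class;
* `prodStmt_of : TwoStmt → Wd54.ProdStmt`.
-/

set_option autoImplicit false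
set_option linter.unusedSectionVars false
set_option linter.style.haveILetI false

noncomputable section

namespace Crest.Agent.X262.Prod33

open Crest.Agent.X277 Crest.Agent.X277.BD Crest.Agent.X277.Pst Crest.Agent.X277.BD.Cyc Polynomial
open Crest.Agent.X262.Geo (od od_eq_zero essFT_Rf)
open Crest.Agent.X262.Hb Crest.Agent.X262.Vb
open Crest.Agent.X262.Sym65 (PF PX sm i1 qv cf Sup Liv LivX Fs TwoStmt mem_sup cl_sup sup_inf)
open Crest.Agent.X262.Node22 (pair Par scl pair_red mem_Eb_pair)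
open Crest.Agent.X262.Wd54 (ten ins vrd)
open Crest.Agent.R274.Prod1_134 (IsPF)

variable {J : Type} [Fintype J] [DecidableEq J] {io : J → Type} [∀ j, Fintype (io j)]
  [∀ j, DecidableEq (io j)] {A : Type} [Fintype A] {I I₁ I₂ M M₁ M₂ : Type} [Fintype I]
  [Fintype I₁] [Fintype I₂] {K K₁ K₂ L E : Type} [Field K] [Algebra ℂ K] [Field K₁] [Algebra ℂ K₁]
  [Field K₂] [Algebra ℂ K₂] [Field L] [Algebra ℂ L] [Field E] [Algebra ℂ E] {B : Th}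
  {T : Tgt io A}

/-! ### pairs -/

section Pair

variable {w₁ : Cfg io I₁ K} {w₂ : Cfg io I₂ K}

theorem nz_pair (h₁ : w₁.NZ) (h₂ : w₂.NZ) : (pair w₁ w₂).NZ
  | Sum.inl q => h₁ q
  | Sum.inr q => h₂ q

theorem on_pair : (pair w₁ w₂).On T ↔ w₁.On T ∧ w₂.On T := Sum.forall

theorem nm_pair (V : RZ ℂ K) : nm ((pair w₁ w₂).ea T) V ((pair w₁ w₂).sv T) =
    max (nm (w₁.ea T) V (w₁.sv T)) (nm (w₂.ea T) V (w₂.sv T)) :=
  eq_of_forall_ge_iff fun γ => by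
    rw [max_le_iff, nm_le, nm_le, nm_le]
    exact ⟨fun h => ⟨fun x => h (x.1, .inl x.2), fun x => h (x.1, .inr x.2)⟩,
      fun h x => match x with
        | (a, .inl q) => h.1 (a, q)
        | (a, .inr q) => h.2 (a, q)⟩

theorem dv_pair (h₁ : ¬ w₁.On T) (h₂ : ¬ w₂.On T) : (pair w₁ w₂).dv T = w₁.dv T ⊓ w₂.dv T :=
  ext' fun V => by
    have h3 := nm_pos (a := w₁.ea T) (V := V) ((Cfg.on_iff T).not.1 h₁)
    have h4 := nm_pos (a := w₂.ea T) (V := V) ((Cfg.on_iff T).not.1 h₂)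
    rw [val_inf, Cfg.val_dv T h₁, Cfg.val_dv T h₂, Cfg.val_dv T fun h => h₁ (on_pair.1 h).1,
      nm_pair]
    rcases le_total (nm (w₁.ea T) V (w₁.sv T)) (nm (w₂.ea T) V (w₂.sv T)) with h | h
    · rw [max_eq_right h, min_eq_right (inv_anti₀ h3 h)]
    · rw [max_eq_left h, min_eq_left (inv_anti₀ h4 h)]

theorem cpz_pair (hB : B.Ax) [Algebra.EssFiniteType ℂ K] (w₁ : Cfg io I₁ K) (w₂ : Cfg io I₂ K) :
    cpz B T (pair w₁ w₂) = cpz B T w₁ * cpz B T w₂ := by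
  let g := (Equiv.prodSumDistrib A I₁ I₂).symm
  have h1 : (fun i => (pair w₁ w₂).ea T (g i)) = Sum.elim (w₁.ea T) (w₂.ea T) :=
    funext fun i => by rcases i with i | i <;> rfl
  have h2 : ((pair w₁ w₂).Eb T).map (LinearMap.funLeft K K g) = dsum (w₁.Eb T) (w₂.Eb T) := by
    ext u
    refine ⟨fun ⟨σ, h, e⟩ => e ▸ mem_Eb_pair.1 h, fun h => ⟨u ∘ g.symm, mem_Eb_pair.2 h, ?_⟩⟩
    funext i
    exact congrArg u (g.symm_apply_apply i)
  rw [cpz, ← hB.cp_funLeft (g := g) fun _ _ i hi => (hi (g.surjective i)).elim, h1, h2, hB.cp_dsum]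
  rfl

end Pair

theorem par_of_geq {z z' : Cfg io I K} (h : Cfg.Geq z z') (q : I) : Par (z'.y q) (z.y q) := by
  obtain ⟨c, hc, rfl⟩ := h
  exact ⟨c q, hc q, rfl⟩

theorem mcls_geq [Algebra.EssFiniteType ℂ K] {Θ : MFam B io (M₁ ⊕ M₂)} (hΘ : MCls B T Θ)
    {w₁ w₁' : Cfg io I₁ K} {w₂ w₂' : Cfg io I₂ K} (g₁ : Cfg.Geq w₁ w₁') (g₂ : Cfg.Geq w₂ w₂')
    (hz : (pair w₁ w₂).NZ) (hO : (pair w₁ w₂).On T) (m : M₁ ⊕ M₂ → I₁ ⊕ I₂) :
    (Θ K fun q => (pair w₁' w₂').y (m q)) = Θ K fun q => (pair w₁ w₂).y (m q) := by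
  have h : ∀ x, Par ((pair w₁' w₂').y x) ((pair w₁ w₂).y x) := fun x => by
    rcases x with x | x
    exacts [par_of_geq g₁ x, par_of_geq g₂ x]
  choose c hc e using h
  rw [funext fun q => e (m q)]
  exact hΘ.scl K _ (fun q => c (m q)) (fun q => hc (m q)) (fun q => hz (m q)) fun q => hO (m q)

theorem mcls_ten {Φ₁ : MFam B io M₁} {Φ₂ : MFam B io M₂} (h₁ : MCls B T Φ₁) (h₂ : MCls B T Φ₂) :
    MCls B T (ten Φ₁ Φ₂) := (h₁.comp Sum.inl).mul (h₂.comp Sum.inr)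

theorem mcls_ins {Φ : MFam B io M} (h : MCls B T Φ) (n : M) {e : Fam B io} (he : Cls B T e) :
    MCls B T (ins Φ n e) := h.mul (he.at n)

theorem sm_fsum {a : BD ℂ K} {ι : Type*} (s : Finset ι) {f : ι → RZ ℂ K → ℂ}
    (h : ∀ i ∈ s, Fs a (f i)) :
    Fs a (fun V => ∑ i ∈ s, f i V) ∧ (sm a fun V => ∑ i ∈ s, f i V) = ∑ i ∈ s, sm a (f i) := by
  classical
  induction s using Finset.induction_on with
  | empty => exact ⟨Set.finite_empty.subset fun V hV => hV.2 (by simp), by simp [sm]⟩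
  | insert i s hi ih =>
    obtain ⟨h1, h2⟩ := ih fun j hj => h j (Finset.mem_insert_of_mem hj)
    simp only [Finset.sum_insert hi]
    have h3 := h i (Finset.mem_insert_self i s)
    exact ⟨h3.add h1, by rw [Sym65.sm_add h3 h1, h2]⟩

theorem sm_sm {a : BD ℂ K₁} {b : BD ℂ K₂} {ι : Type*} [Fintype ι] {u : ι → RZ ℂ K₁ → ℂ}
    {v : ι → RZ ℂ K₂ → ℂ} (hu : ∀ l, Fs a (u l)) (hv : ∀ l, Fs b (v l)) :
    (sm a fun V => sm b fun W => ∑ l, u l V * v l W) = ∑ l, sm a (u l) * sm b (v l) := by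
  have h1 : ∀ V, (sm b fun W => ∑ l, u l V * v l W) = ∑ l, sm b (v l) * u l V := fun V => by
    rw [(sm_fsum _ fun l _ => (hv l).mul (u l V)).2]
    exact Finset.sum_congr rfl fun l _ => by rw [Sym65.sm_mul, mul_comm]
  simp only [h1]
  rw [(sm_fsum _ fun l _ => (hu l).mul _).2]
  exact Finset.sum_congr rfl fun l _ => by rw [Sym65.sm_mul, mul_comm]

/-! ### the product formula -/

/-- the insertion at a pair of places -/
def bf (z₁ : Cfg io I₁ K₁) (z₂ : Cfg io I₂ K₂) (m : M → I₁ ⊕ I₂) (Θ : MFam B io M) : BF B K₁ K₂ :=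
  fun E _ _ p₁ p₂ => Θ E fun q => (pair (z₁.red p₁.toPl) (z₂.red p₂.toPl)).y (m q)

variable {z₁ : Cfg io I₁ K₁} {z₂ : Cfg io I₂ K₂} {Θ : MFam B io (M₁ ⊕ M₂)}

theorem bf_hom [Algebra.EssFiniteType ℂ E] [Algebra.EssFiniteType ℂ L] (hΘ : MCls B T Θ)
    (n₁ : z₁.NZ) (n₂ : z₂.NZ) (m : M₁ ⊕ M₂ → I₁ ⊕ I₂) {E' : Type} [Field E'] [Algebra ℂ E']
    {p₁ : LP K₁ E} {p₂ : LP K₂ E'} (o₁ : (z₁.red p₁.toPl).On T) (o₂ : (z₂.red p₂.toPl).On T)
    (c₁ : E →ₐ[ℂ] L) (c₂ : E' →ₐ[ℂ] L) :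
    bf z₁ z₂ m Θ L (p₁.comp (LP.hom c₁)) (p₂.comp (LP.hom c₂)) =
      Θ L fun q => (pair ((z₁.red p₁.toPl).map c₁) ((z₂.red p₂.toPl).map c₂)).y (m q) :=
  mcls_geq hΘ (Cfg.map_red p₁ c₁ n₁).symm (Cfg.map_red p₂ c₂ n₂).symm
    (nz_pair ((n₁.red _).map _) ((n₂.red _).map _))
    (on_pair.2 ⟨(Cfg.on_map T c₁).2 o₁, (Cfg.on_map T c₂).2 o₂⟩) m

theorem nt_bf (hΘ : MCls B T Θ) (n₁ : z₁.NZ) (n₂ : z₂.NZ) (m : M₁ ⊕ M₂ → I₁ ⊕ I₂) :
    Nt (bf z₁ z₂ m Θ) (Sup (z₁.dv T)) (Sup (z₂.dv T)) := fun E E' _ _ _ _ _ _ ρ p₁ p₂ h₁ h₂ => by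
  have o₁ := Cfg.on_red_of T p₁.lnr n₁ h₁
  have o₂ := Cfg.on_red_of T p₂.lnr n₂ h₂
  rw [bf_hom hΘ n₁ n₂ m o₁ o₂, bf, ← hΘ.map ρ (nz_pair (n₁.red _) (n₂.red _)) (on_pair.2 ⟨o₁, o₂⟩)]
  congr 1
  funext q
  rcases m q with x | x <;> rfl

variable [Algebra.EssFiniteType ℂ K₁] [Algebra.EssFiniteType ℂ K₂] {a : K₁ →ₐ[ℂ] L}
  {b : K₂ →ₐ[ℂ] L}

/-- **the virtual number of a pair of configurations over a product field** -/
theorem vir_ker (h2 : TwoStmt) (hB : B.Ax) (h : IsPF a b) (r₁ : Rk T z₁) (r₂ : Rk T z₂)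
    (o₁ : ¬ z₁.On T) (o₂ : ¬ z₂.On T) (hΘ : MCls B T Θ) (m : M₁ ⊕ M₂ → I₁ ⊕ I₂)
    {f : RZ ℂ K₁ → RZ ℂ K₂ → ℂ}
    (hf : ∀ V₁ V₂, Dvs V₁ → Dvs V₂ → (z₁.red (plV V₁)).On T → (z₂.red (plV V₂)).On T →
      ∀ (E : Type) [Field E] [Algebra ℂ E] [Algebra.EssFiniteType ℂ E] (c₁ : Rf V₁ →ₐ[ℂ] E)
      (c₂ : Rf V₂ →ₐ[ℂ] E), Prd c₁ c₂ → B.itg E
        (B.pb (LP.hom c₁) (exc B T (z₁.red (plV V₁)) (B.pb (LP.at V₁) (B.c1 (z₁.dv T)))) *
          B.pb (LP.hom c₂) (exc B T (z₂.red (plV V₂)) (B.pb (LP.at V₂) (B.c1 (z₂.dv T)))) *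
          Θ E fun q => (pair ((z₁.red (plV V₁)).map c₁) ((z₂.red (plV V₂)).map c₂)).y (m q)) =
        f V₁ V₂) :
    vir B T (pair (z₁.map a) (z₂.map b)) m Θ = sm (z₁.dv T) fun V₁ => sm (z₂.dv T) (f V₁) := by
  haveI := Wd.essFT_pf h
  have n₁ := r₁.nz
  have n₂ := r₂.nz
  have hz := nz_pair (n₁.map a) (n₂.map b)
  have hd : (pair (z₁.map a) (z₂.map b)).dv T = pb a (z₁.dv T) ⊓ pb b (z₂.dv T) := by
    rw [dv_pair ((Cfg.on_map T a).not.2 o₁) ((Cfg.on_map T b).not.2 o₂), Cfg.dv_map, Cfg.dv_map]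
  have he : ∀ (E : Type) [Field E] [Algebra ℂ E] [Algebra.EssFiniteType ℂ E] (p : LP L E),
      p.V ∈ Sup (pb a (z₁.dv T) ⊓ pb b (z₂.dv T)) →
      evF (pair (z₁.map a) (z₂.map b)) m Θ E p = (bf z₁ z₂ m Θ).dg a b E p := fun E _ _ _ p hp => by
    have h3 := Cfg.on_red_of T p.lnr hz (hd ▸ hp)
    have h4 := hz.red p.toPl
    rw [pair_red] at h3 h4
    rw [evF, pair_red]
    exact (mcls_geq hΘ (Cfg.red_map a p n₁).symm (Cfg.red_map b p n₂).symm h4 h3 m).symm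
  rw [vir_eq_sm, hd, ← sm_ker h2 hB h (Cfg.dv_nonneg T n₁) (Cfg.dv_nonneg T n₂)
    ((r₁.livX hB).mono (sup_sub n₁)) ((r₂.livX hB).mono (sup_sub n₂))
    (fun E _ _ _ p hp => r₁.root' hB hp) (fun E _ _ _ p hp => r₂.root' hB hp) (nt_bf hΘ n₁ n₂ m)
    (((liv_evF hΘ hz m).mono (hd ▸ sup_sub hz)).congr (cl_sup _) he)
    fun V₁ V₂ h₁ h₂ d₁ d₂ E _ _ _ c₁ c₂ hc => ?_]
  · refine Sym65.sm_congr fun V hV h3 => congrArg (B.itg (Rf V)) ?_
    haveI := essFT_Rf hV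
    have h4 : cpF B T (pair (z₁.map a) (z₂.map b)) (Rf V) (LP.at V) =
        (Sym65.PX.on (cpF B T z₁) (LP.hom a) * Sym65.PX.on (cpF B T z₂) (LP.hom b)) (Rf V)
          (LP.at V) := by
      rw [cpF, pair_red, cpz_pair hB, cpz_geq hB (Cfg.red_map a (LP.at V) n₁) (n₁.red _),
        cpz_geq hB (Cfg.red_map b (LP.at V) n₂) (n₂.red _)]
      rfl
    exact congrArg₂ (· * ·) (congrArg (fun P : (B.H (Rf V))[X] => (-P.divX).eval _) h4)
      (he _ (LP.at V) ((mem_sup hV).2 h3))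
  · haveI := essFT_Rf h₁
    haveI := essFT_Rf h₂
    have h3 := on_at n₁ ((mem_sup h₁).2 d₁)
    have h4 := on_at n₂ ((mem_sup h₂).2 d₂)
    rw [bf_hom hΘ n₁ n₂ m (p₁ := LP.at V₁) (p₂ := LP.at V₂) h3 h4]
    exact hf V₁ V₂ h₁ h₂ h3 h4 E c₁ c₂ (prd_of_isPF hc)

/-- **product and diagonal** -/
theorem vrd_diag (h2 : TwoStmt) (hB : B.Ax) {c : ℕ} (hS : Smo T c) {ι : Type} [Fintype ι]
    {e e' : ι → Fam B io} (he : ∀ l, Cls B T (e l)) (he' : ∀ l, Cls B T (e' l))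
    (hD : Diag B T e e') (h : IsPF a b) (r₁ : Rk T z₁) (r₂ : Rk T z₂) (o₁ : ¬ z₁.On T)
    (o₂ : ¬ z₂.On T) (m₁ : M₁ → I₁) (m₂ : M₂ → I₂) (n₁ : M₁) (n₂ : M₂) {Φ₁ : MFam B io M₁}
    {Φ₂ : MFam B io M₂} (h₁ : MCls B T Φ₁) (h₂ : MCls B T Φ₂) :
    vrd B T (pair (z₁.map a) (z₂.map b)) (Sum.map m₁ m₂) (ten Φ₁ Φ₂) (.inl (m₁ n₁))
        (.inr (m₂ n₂)) =
      ∑ l, vir B T z₁ m₁ (ins Φ₁ n₁ (e l)) * vir B T z₂ m₂ (ins Φ₂ n₂ (e' l)) := by
  have h3 := vir_ker h2 hB h r₁ r₂ o₁ o₂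
    ((mcls_ten h₁ h₂).mul (hB.mcls_dgc hS (Sum.inl n₁) (Sum.inr n₂))) (Sum.map m₁ m₂)
    (f := fun V W => ∑ l, B.itg (Rf V) (trm B T z₁ m₁ (ins Φ₁ n₁ (e l)) V) *
      B.itg (Rf W) (trm B T z₂ m₂ (ins Φ₂ n₂ (e' l)) W))
    fun V₁ V₂ d₁ d₂ s₁ s₂ E _ _ _ c₁ c₂ hc => by
      haveI := essFT_Rf d₁
      haveI := essFT_Rf d₂
      have h4 := r₁.nz.red (plV V₁)
      have h5 := r₂.nz.red (plV V₂)
      have h6 := hD _ _ E c₁ c₂ hc _ _ (h4 (m₁ n₁)) (s₁ _) (h5 (m₂ n₂)) (s₂ _)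
        (trm B T z₁ m₁ Φ₁ V₁) (trm B T z₂ m₂ Φ₂ V₂)
      rw [trm, trm, map_mul (B.pb (LP.hom c₁)), map_mul (B.pb (LP.hom c₂)), ← h₁.map c₁ h4 s₁,
        ← h₂.map c₂ h5 s₂] at h6
      refine Eq.trans (congrArg (B.itg E) ?_) (h6.trans (Finset.sum_congr rfl fun l _ => ?_))
      · rw [mul_mul_mul_comm, mul_assoc _ (_ * _)]
        rfl
      · rw [mul_assoc, mul_assoc]
        rfl
  rw [sm_sm (fun l => fs_vir hB (mcls_ins h₁ n₁ (he l)) r₁.nz m₁)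
    fun l => fs_vir hB (mcls_ins h₂ n₂ (he' l)) r₂.nz m₂] at h3
  refine Eq.trans (finsum_congr fun W => finsum_congr fun _ => ?_) h3
  rw [trm, trm, mul_assoc]
  rfl

/-- **PROD + DIAG** -/
theorem prodStmt_of (h2 : TwoStmt) : Wd54.ProdStmt := by
  intro B hB J _ _ io _ _ A _ T c hS ι _ e e' he he' hD d₁ d₂
  obtain ⟨N₁, h₁⟩ := rk_of Tree87.rankStmt (hS.good d₁)
  obtain ⟨N₂, h₂⟩ := rk_of Tree87.rankStmt (hS.good d₂)
  refine ⟨max N₁ N₂, ?_⟩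
  intro I₁ I₂ M₁ M₂ L₁ L₂ L _ _ _ _ _ _ _ _ _ _ _ α₁ α₂ hP η₁ η₂ m₁ m₂ n₁ n₂ Φ₁ Φ₂ f₁ f₂ u₁ u₂ o₁ o₂
  rw [Vb37.cfg_map, Vb37.cfg_map]
  exact vrd_diag h2 hB hS he he' hD (isPF_of_prd hP)
    (h₁ η₁ (Tree87.nz_cfg η₁) (Vb37.nrmUp_mono u₁ (le_max_left _ _)))
    (h₂ η₂ (Tree87.nz_cfg η₂) (Vb37.nrmUp_mono u₂ (le_max_right _ _))) o₁ o₂ m₁ m₂ n₁ n₂ f₁ f₂

end Crest.Agent.X262.Prod33
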